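import Vale.Agent.Lib.P368.Tof.Main

/-!
# P368, any depth: expectations of product operators

Conventions used in the comments: a product operator is given by one `2 × 2` matrix `O p` per
qubit; its expectation in a vector `ψ` is `expVal O ψ`.  A one-qubit matrix is good if it is
`m† m` for a matrix `m` of norm at most one, or a rank-one matrix `a b†` with `a`, `b` of norm
at most one.  Conjugating a product of good matrices by a multi-controlled `Z` gate gives a
combination of four such products with coefficients `1`, `-2`, `-2`, `4`.
-/

namespace Vale.Agent.Lib.P368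

open Finset

/-- A positive one-qubit matrix of norm at most one, written as `m† m`. -/
def IsPos (O : Matrix Bool Bool ℂ) : Prop :=
  ∃ m : Matrix Bool Bool ℂ, IsContr m ∧ O = m.conjTranspose * m

/-- A rank-one matrix `a b†` with `a` and `b` of norm at most one. -/
def IsR1 (O : Matrix Bool Bool ℂ) : Prop :=
  ∃ a b : Bool → ℂ, Complex.normSq (a false) + Complex.normSq (a true) ≤ 1 ∧
    Complex.normSq (b false) + Complex.normSq (b true) ≤ 1 ∧
    O = fun i j => a i * (starRingEnd ℂ) (b j)

/-- The class of one-qubit matrices preserved by the expansion. -/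
def Good (O : Matrix Bool Bool ℂ) : Prop := IsPos O ∨ IsR1 O

/-- The weight of one qubit in the three-fold expansion, at the configuration `c` with bits
`y`, `d`, `w`, `z`: zero unless `d = 0`, and then
`wt t y * conj (u z y) * O z w * u w y`. -/
noncomputable def kapO (t : Bool) (O u : Matrix Bool Bool ℂ) (c : Cfg) : ℂ :=
  if c.2.1 = false then
    ((wt t c.1 : ℝ) : ℂ) * ((starRingEnd ℂ) (u c.2.2.2 c.1) * O c.2.2.2 c.2.2.1 * u c.2.2.1 c.1)
  else 0

section

variable {Q : Type} [Fintype Q] [DecidableEq Q]

/-- The pairing of two vectors, conjugate-linear in the first. -/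
def ip (φ ψ : StateVec Q) : ℂ := ∑ z, (starRingEnd ℂ) (φ z) * ψ z

/-- The expectation of the product operator `O` in the vector `ψ`. -/
noncomputable def expVal (O : Q → Matrix Bool Bool ℂ) (ψ : StateVec Q) : ℂ :=
  ip ψ (oneQubitLayer O ψ)

/-- The weight of the basis input `y`: a sign on the qubits flagged by `τ`, and the indicator
that the other qubits are `0`. -/
def wprod (τ : Q → Bool) (y : Q → Bool) : ℝ := ∏ p, wt (τ p) (y p)

/-- Signed sum, over the basis inputs, of the expectation of `O` after a layer `u` of one-qubit
gates and a layer `L` of multi-controlled `Z` gates. -/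
noncomputable def sigExp (τ : Q → Bool) (O : Q → Matrix Bool Bool ℂ) (L : Finset (Finset Q))
    (u : Q → Matrix Bool Bool ℂ) : ℂ :=
  ∑ y : Q → Bool, ((wprod τ y : ℝ) : ℂ) *
    expVal O (czLayer L (oneQubitLayer u (basisState y)))

/-- The family of vectors `Θ y`, `y` a basis input, has all its signed sums of expectations of
products of good matrices bounded by `K`. -/
def SB (τ : Q → Bool) (Θ : (Q → Bool) → StateVec Q) (K : ℝ) : Prop :=
  ∀ O : Q → Matrix Bool Bool ℂ, (∀ p, Good (O p)) →
    ‖∑ y : Q → Bool, ((wprod τ y : ℝ) : ℂ) * expVal O (Θ y)‖ ≤ K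

end

end Vale.Agent.Lib.P368
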