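import Vale.Agent.Lib.P368.Gen.Defs

/-!
# P368, any depth: contracting the qubits of a set `H` with the sum or the difference of two
product vectors
-/

namespace Vale.Agent.Lib.P368

open Finset

variable {Q : Type} [Fintype Q] [DecidableEq Q]

/-- The product of the entries of `a` over the qubits of `H`. -/
noncomputable def gm_P (H : Finset Q) (a : Q → Bool → ℂ) (w : Q → Bool) : ℂ :=
  ∏ p ∈ H, a p (w p)

/-- The total squared norm of a coefficient function over the configurations that vanish
outside `H`. -/
noncomputable def gm_N (H : Finset Q) (V : (Q → Bool) → ℂ) : ℝ :=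
  ∑ w : Q → Bool, if (∀ p, p ∉ H → w p = false) then Complex.normSq (V w) else 0

omit [Fintype Q] [DecidableEq Q] in
theorem gm_P_congr (H : Finset Q) (a : Q → Bool → ℂ) (w w' : Q → Bool)
    (h : ∀ p ∈ H, w p = w' p) : gm_P H a w = gm_P H a w' := by
  unfold gm_P
  apply Finset.prod_congr rfl
  intro p hp
  rw [h p hp]

theorem gm_N_nonneg (H : Finset Q) (V : (Q → Bool) → ℂ) : 0 ≤ gm_N H V := by
  unfold gm_N
  apply Finset.sum_nonneg
  intro w _
  split_ifs
  · exact Complex.normSq_nonneg _
  · exact le_refl _

/-- The matrix entries of the layer that contracts the qubits of `H` with `a`. -/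
theorem gm_entries (H : Finset Q) (a : Q → Bool → ℂ) (z w : Q → Bool) :
    (∏ p, (if p ∈ H then rowMat false (a p) else 1) (z p) (w p))
      = if ((∀ p ∈ H, z p = false) ∧ ∀ p, p ∉ H → w p = z p) then gm_P H a w else 0 := by
  by_cases h : (∀ p ∈ H, z p = false) ∧ ∀ p, p ∉ H → w p = z p
  · rw [if_pos h]
    have h1 : ∀ p, (if p ∈ H then rowMat false (a p) else 1) (z p) (w p)
        = if p ∈ H then a p (w p) else 1 := by
      intro p
      by_cases hp : p ∈ H
      · rw [if_pos hp, if_pos hp]
        unfold rowMat
        rw [if_pos (h.1 p hp)]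
      · rw [if_neg hp, if_neg hp, Matrix.one_apply, if_pos (h.2 p hp).symm]
    rw [Finset.prod_congr rfl (fun p _ => h1 p), Finset.prod_ite_mem, Finset.univ_inter]
    rfl
  · rw [if_neg h]
    rw [not_and_or] at h
    rcases h with h | h
    · push Not at h
      obtain ⟨p, hp, hz⟩ := h
      apply Finset.prod_eq_zero (Finset.mem_univ p)
      rw [if_pos hp]
      unfold rowMat
      rw [if_neg hz]
    · push Not at h
      obtain ⟨p, hp, hw⟩ := h
      apply Finset.prod_eq_zero (Finset.mem_univ p)
      rw [if_neg hp, Matrix.one_apply, if_neg (fun e => hw e.symm)]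

/-- The layer that contracts the qubits of `H` with `a`, as a sum over a fibre. -/
theorem gm_layer (H : Finset Q) (a : Q → Bool → ℂ) (φ : StateVec Q) (z : Q → Bool) :
    oneQubitLayer (fun p => if p ∈ H then rowMat false (a p) else 1) φ z
      = ∑ w : Q → Bool, if ((∀ p ∈ H, z p = false) ∧ ∀ p, p ∉ H → w p = z p)
          then gm_P H a w * φ w else 0 := by
  rw [oneQubitLayer_apply]
  apply Finset.sum_congr rfl
  intro w _
  rw [gm_entries H a z w]
  by_cases h : (∀ p ∈ H, z p = false) ∧ ∀ p, p ∉ H → w p = z p
  · rw [if_pos h, if_pos h]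
  · rw [if_neg h, if_neg h, zero_mul]

/-- Cauchy-Schwarz on a fibre. -/
theorem gm_cs (c : (Q → Bool) → Prop) [DecidablePred c] (V φ : (Q → Bool) → ℂ) :
    Complex.normSq (∑ w : Q → Bool, if c w then V w * φ w else 0)
      ≤ (∑ w : Q → Bool, if c w then Complex.normSq (V w) else 0)
        * (∑ w : Q → Bool, if c w then Complex.normSq (φ w) else 0) := by
  rw [← Finset.sum_filter, ← Finset.sum_filter, ← Finset.sum_filter]
  have h1 : ‖∑ w ∈ Finset.univ.filter c, V w * φ w‖
      ≤ ∑ w ∈ Finset.univ.filter c, ‖V w‖ * ‖φ w‖ := by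
    refine (norm_sum_le _ _).trans (le_of_eq ?_)
    apply Finset.sum_congr rfl
    intro w _
    exact norm_mul _ _
  have h2 := Finset.sum_mul_sq_le_sq_mul_sq (Finset.univ.filter c)
    (fun w => ‖V w‖) (fun w => ‖φ w‖)
  rw [Complex.normSq_eq_norm_sq]
  calc ‖∑ w ∈ Finset.univ.filter c, V w * φ w‖ ^ 2
      ≤ (∑ w ∈ Finset.univ.filter c, ‖V w‖ * ‖φ w‖) ^ 2 :=
        pow_le_pow_left₀ (norm_nonneg _) h1 2
    _ ≤ (∑ w ∈ Finset.univ.filter c, ‖V w‖ ^ 2)
          * (∑ w ∈ Finset.univ.filter c, ‖φ w‖ ^ 2) := h2
    _ = (∑ w ∈ Finset.univ.filter c, Complex.normSq (V w))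
          * (∑ w ∈ Finset.univ.filter c, Complex.normSq (φ w)) := by
        simp only [Complex.sq_norm]

/-- The squared norm of a coefficient function that only reads the qubits of `H` is the same
on every fibre. -/
theorem gm_fibre_N (H : Finset Q) (V : (Q → Bool) → ℂ)
    (hV : ∀ w w' : Q → Bool, (∀ p ∈ H, w p = w' p) → V w = V w') (z : Q → Bool) :
    (∑ w : Q → Bool, if (∀ p, p ∉ H → w p = z p) then Complex.normSq (V w) else 0)
      = gm_N H V := by
  let σ : (Q → Bool) ≃ (Q → Bool) :=
    { toFun := fun w p => if p ∈ H then w p else xor (w p) (z p)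
      invFun := fun w p => if p ∈ H then w p else xor (w p) (z p)
      left_inv := by
        intro w
        funext p
        by_cases hp : p ∈ H
        · simp only [if_pos hp]
        · simp only [if_neg hp]
          cases w p <;> cases z p <;> rfl
      right_inv := by
        intro w
        funext p
        by_cases hp : p ∈ H
        · simp only [if_pos hp]
        · simp only [if_neg hp]
          cases w p <;> cases z p <;> rfl }
  have hσ : ∀ (w : Q → Bool) (p : Q), σ w p = if p ∈ H then w p else xor (w p) (z p) :=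
    fun _ _ => rfl
  unfold gm_N
  rw [← Equiv.sum_comp σ
    (fun w : Q → Bool => if (∀ p, p ∉ H → w p = false) then Complex.normSq (V w) else 0)]
  apply Finset.sum_congr rfl
  intro w _
  have hiff : (∀ p, p ∉ H → σ w p = false) ↔ (∀ p, p ∉ H → w p = z p) := by
    constructor
    · intro h p hp
      have h1 := h p hp
      rw [hσ, if_neg hp] at h1
      revert h1
      cases w p <;> cases z p <;> simp
    · intro h p hp
      rw [hσ, if_neg hp, h p hp]
      cases z p <;> rfl
  have hVσ : V (σ w) = V w := hV _ _ (fun p hp => by rw [hσ, if_pos hp])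
  by_cases h : ∀ p, p ∉ H → w p = z p
  · rw [if_pos h, if_pos (hiff.2 h), hVσ]
  · rw [if_neg h, if_neg (fun h' => h (hiff.1 h'))]

/-- Summing the fibre sums over all base points gives the total squared norm. -/
theorem gm_sum_z (H : Finset Q) (φ : StateVec Q) :
    (∑ z : Q → Bool, ∑ w : Q → Bool,
        if ((∀ p ∈ H, z p = false) ∧ ∀ p, p ∉ H → w p = z p)
          then Complex.normSq (φ w) else 0) = normSqSum φ := by
  rw [Finset.sum_comm]
  unfold normSqSum
  apply Finset.sum_congr rfl
  intro w _
  rw [Finset.sum_eq_single (fun p => if p ∈ H then false else w p)]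
  · rw [if_pos]
    exact ⟨fun p hp => if_pos hp, fun p hp => (if_neg hp).symm⟩
  · intro z _ hz
    rw [if_neg]
    rintro ⟨h1, h2⟩
    apply hz
    funext p
    by_cases hp : p ∈ H
    · rw [if_pos hp]
      exact h1 p hp
    · rw [if_neg hp]
      exact (h2 p hp).symm
  · intro h
    exact absurd (Finset.mem_univ _) h

/-- The norm bound for a fibrewise contraction with a coefficient function that only reads the
qubits of `H`. -/
theorem gm_bound (H : Finset Q) (V : (Q → Bool) → ℂ)
    (hV : ∀ w w' : Q → Bool, (∀ p ∈ H, w p = w' p) → V w = V w') (φ : StateVec Q) :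
    (∑ z : Q → Bool, Complex.normSq (∑ w : Q → Bool,
        if ((∀ p ∈ H, z p = false) ∧ ∀ p, p ∉ H → w p = z p) then V w * φ w else 0))
      ≤ gm_N H V * normSqSum φ := by
  have hnn : ∀ z : Q → Bool, 0 ≤ ∑ w : Q → Bool,
      if ((∀ p ∈ H, z p = false) ∧ ∀ p, p ∉ H → w p = z p)
        then Complex.normSq (φ w) else 0 := by
    intro z
    apply Finset.sum_nonneg
    intro w _
    split_ifs
    · exact Complex.normSq_nonneg _
    · exact le_refl _
  have hle : ∀ z : Q → Bool, (∑ w : Q → Bool,
      if ((∀ p ∈ H, z p = false) ∧ ∀ p, p ∉ H → w p = z p)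
        then Complex.normSq (V w) else 0) ≤ gm_N H V := by
    intro z
    rw [← gm_fibre_N H V hV z]
    apply Finset.sum_le_sum
    intro w _
    by_cases h : (∀ p ∈ H, z p = false) ∧ ∀ p, p ∉ H → w p = z p
    · rw [if_pos h, if_pos h.2]
    · rw [if_neg h]
      split_ifs
      · exact Complex.normSq_nonneg _
      · exact le_refl _
  calc (∑ z : Q → Bool, Complex.normSq (∑ w : Q → Bool,
        if ((∀ p ∈ H, z p = false) ∧ ∀ p, p ∉ H → w p = z p) then V w * φ w else 0))
      ≤ ∑ z : Q → Bool, (∑ w : Q → Bool,
          if ((∀ p ∈ H, z p = false) ∧ ∀ p, p ∉ H → w p = z p)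
            then Complex.normSq (V w) else 0)
        * (∑ w : Q → Bool,
          if ((∀ p ∈ H, z p = false) ∧ ∀ p, p ∉ H → w p = z p)
            then Complex.normSq (φ w) else 0) :=
        Finset.sum_le_sum (fun z _ =>
          gm_cs (fun w => (∀ p ∈ H, z p = false) ∧ ∀ p, p ∉ H → w p = z p) V φ)
    _ ≤ ∑ z : Q → Bool, gm_N H V * (∑ w : Q → Bool,
          if ((∀ p ∈ H, z p = false) ∧ ∀ p, p ∉ H → w p = z p)
            then Complex.normSq (φ w) else 0) :=
        Finset.sum_le_sum (fun z _ => mul_le_mul_of_nonneg_right (hle z) (hnn z))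
    _ = gm_N H V * normSqSum φ := by
        rw [← Finset.mul_sum, gm_sum_z]

/-- The squared norms of the products over the configurations vanishing outside `H` sum to at
most one. -/
theorem gm_S_le (H : Finset Q) (a : Q → Bool → ℂ)
    (ha : ∀ p ∈ H, Complex.normSq (a p false) + Complex.normSq (a p true) ≤ 1) :
    (∑ w : Q → Bool, if (∀ p, p ∉ H → w p = false) then Complex.normSq (gm_P H a w) else 0)
      ≤ 1 := by
  have h1 : ∀ w : Q → Bool,
      (if (∀ p, p ∉ H → w p = false) then Complex.normSq (gm_P H a w) else 0)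
        = ∏ p, (fun (p : Q) (c : Bool) =>
            if p ∈ H then Complex.normSq (a p c) else (if c = false then (1 : ℝ) else 0))
              p (w p) := by
    intro w
    by_cases h : ∀ p, p ∉ H → w p = false
    · rw [if_pos h]
      unfold gm_P
      rw [map_prod]
      have h2 : ∀ p, (if p ∈ H then Complex.normSq (a p (w p))
          else (if w p = false then (1 : ℝ) else 0))
            = if p ∈ H then Complex.normSq (a p (w p)) else 1 := by
        intro p
        by_cases hp : p ∈ H
        · rw [if_pos hp, if_pos hp]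
        · rw [if_neg hp, if_neg hp, if_pos (h p hp)]
      rw [Finset.prod_congr rfl (fun p _ => h2 p), Finset.prod_ite_mem, Finset.univ_inter]
    · rw [if_neg h]
      push Not at h
      obtain ⟨p, hp, hw⟩ := h
      symm
      apply Finset.prod_eq_zero (Finset.mem_univ p)
      show (if p ∈ H then Complex.normSq (a p (w p))
          else (if w p = false then (1 : ℝ) else 0)) = 0
      rw [if_neg hp, if_neg hw]
  rw [Finset.sum_congr rfl (fun w _ => h1 w),
    sum_prod_eq_prod_sum_real (fun (p : Q) (c : Bool) =>
      if p ∈ H then Complex.normSq (a p c) else (if c = false then (1 : ℝ) else 0))]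
  apply Finset.prod_le_one
  · intro p _
    apply Finset.sum_nonneg
    intro c _
    show 0 ≤ (if p ∈ H then Complex.normSq (a p c) else (if c = false then (1 : ℝ) else 0))
    split_ifs
    · exact Complex.normSq_nonneg _
    · exact zero_le_one
    · exact le_refl _
  · intro p _
    rw [Fintype.sum_bool]
    show (if p ∈ H then Complex.normSq (a p true) else (if true = false then (1 : ℝ) else 0))
      + (if p ∈ H then Complex.normSq (a p false) else (if false = false then (1 : ℝ) else 0))
        ≤ 1
    by_cases hp : p ∈ H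
    · rw [if_pos hp, if_pos hp]
      linarith [ha p hp]
    · rw [if_neg hp, if_neg hp]
      simp

/-- The parallelogram law with a phase. -/
theorem gm_parallelogram (x y ω : ℂ) (hω : ‖ω‖ = 1) :
    Complex.normSq (x + ω * y) + Complex.normSq (x - ω * y)
      = 2 * Complex.normSq x + 2 * Complex.normSq y := by
  have h1 : Complex.normSq (ω * y) = Complex.normSq y := by
    rw [Complex.normSq_mul, Complex.normSq_eq_norm_sq, hω]
    ring
  rw [Complex.normSq_add, Complex.normSq_sub, h1]
  ring

theorem mixed_bound (H : Finset Q) (a b : Q → Bool → ℂ)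
    (ha : ∀ p ∈ H, Complex.normSq (a p false) + Complex.normSq (a p true) ≤ 1)
    (hb : ∀ p ∈ H, Complex.normSq (b p false) + Complex.normSq (b p true) ≤ 1)
    (ω : ℂ) (hω : ‖ω‖ = 1) :
    ∃ N₁ N₂ : ℝ, 0 ≤ N₁ ∧ 0 ≤ N₂ ∧ N₁ + N₂ ≤ 4 ∧ ∀ φ : StateVec Q,
      normSqSum (fun z =>
          oneQubitLayer (fun p => if p ∈ H then rowMat false (a p) else 1) φ z +
            ω * oneQubitLayer (fun p => if p ∈ H then rowMat false (b p) else 1) φ z) ≤
        N₁ * normSqSum φ ∧
      normSqSum (fun z =>
          oneQubitLayer (fun p => if p ∈ H then rowMat false (a p) else 1) φ z -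
            ω * oneQubitLayer (fun p => if p ∈ H then rowMat false (b p) else 1) φ z) ≤
        N₂ * normSqSum φ := by
  have hV1 : ∀ w w' : Q → Bool, (∀ p ∈ H, w p = w' p) →
      (fun w => gm_P H a w + ω * gm_P H b w) w = (fun w => gm_P H a w + ω * gm_P H b w) w' := by
    intro w w' h
    show gm_P H a w + ω * gm_P H b w = gm_P H a w' + ω * gm_P H b w'
    rw [gm_P_congr H a w w' h, gm_P_congr H b w w' h]
  have hV2 : ∀ w w' : Q → Bool, (∀ p ∈ H, w p = w' p) →
      (fun w => gm_P H a w - ω * gm_P H b w) w = (fun w => gm_P H a w - ω * gm_P H b w) w' := by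
    intro w w' h
    show gm_P H a w - ω * gm_P H b w = gm_P H a w' - ω * gm_P H b w'
    rw [gm_P_congr H a w w' h, gm_P_congr H b w w' h]
  refine ⟨gm_N H (fun w => gm_P H a w + ω * gm_P H b w),
    gm_N H (fun w => gm_P H a w - ω * gm_P H b w), gm_N_nonneg _ _, gm_N_nonneg _ _, ?_, ?_⟩
  · have hsum : gm_N H (fun w => gm_P H a w + ω * gm_P H b w)
        + gm_N H (fun w => gm_P H a w - ω * gm_P H b w)
        = 2 * (∑ w : Q → Bool,
            if (∀ p, p ∉ H → w p = false) then Complex.normSq (gm_P H a w) else 0)
          + 2 * (∑ w : Q → Bool,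
            if (∀ p, p ∉ H → w p = false) then Complex.normSq (gm_P H b w) else 0) := by
      unfold gm_N
      rw [Finset.mul_sum, Finset.mul_sum, ← Finset.sum_add_distrib, ← Finset.sum_add_distrib]
      apply Finset.sum_congr rfl
      intro w _
      by_cases h : ∀ p, p ∉ H → w p = false
      · rw [if_pos h, if_pos h, if_pos h, if_pos h]
        exact gm_parallelogram _ _ ω hω
      · rw [if_neg h, if_neg h, if_neg h, if_neg h]
        ring
    rw [hsum]
    have h1 := gm_S_le H a ha
    have h2 := gm_S_le H b hb
    linarith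
  · intro φ
    constructor
    · have e : ∀ z : Q → Bool,
          oneQubitLayer (fun p => if p ∈ H then rowMat false (a p) else 1) φ z +
            ω * oneQubitLayer (fun p => if p ∈ H then rowMat false (b p) else 1) φ z
          = ∑ w : Q → Bool, if ((∀ p ∈ H, z p = false) ∧ ∀ p, p ∉ H → w p = z p)
              then (fun w => gm_P H a w + ω * gm_P H b w) w * φ w else 0 := by
        intro z
        rw [gm_layer H a φ z, gm_layer H b φ z, Finset.mul_sum, ← Finset.sum_add_distrib]
        apply Finset.sum_congr rfl
        intro w _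
        by_cases h : (∀ p ∈ H, z p = false) ∧ ∀ p, p ∉ H → w p = z p
        · rw [if_pos h, if_pos h, if_pos h]
          ring
        · rw [if_neg h, if_neg h, if_neg h]
          ring
      have e' : normSqSum (fun z =>
          oneQubitLayer (fun p => if p ∈ H then rowMat false (a p) else 1) φ z +
            ω * oneQubitLayer (fun p => if p ∈ H then rowMat false (b p) else 1) φ z)
          = ∑ z : Q → Bool, Complex.normSq (∑ w : Q → Bool,
              if ((∀ p ∈ H, z p = false) ∧ ∀ p, p ∉ H → w p = z p)
                then (fun w => gm_P H a w + ω * gm_P H b w) w * φ w else 0) := by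
        unfold normSqSum
        apply Finset.sum_congr rfl
        intro z _
        exact congrArg Complex.normSq (e z)
      rw [e']
      exact gm_bound H _ hV1 φ
    · have e : ∀ z : Q → Bool,
          oneQubitLayer (fun p => if p ∈ H then rowMat false (a p) else 1) φ z -
            ω * oneQubitLayer (fun p => if p ∈ H then rowMat false (b p) else 1) φ z
          = ∑ w : Q → Bool, if ((∀ p ∈ H, z p = false) ∧ ∀ p, p ∉ H → w p = z p)
              then (fun w => gm_P H a w - ω * gm_P H b w) w * φ w else 0 := by
        intro z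
        rw [gm_layer H a φ z, gm_layer H b φ z, Finset.mul_sum, ← Finset.sum_sub_distrib]
        apply Finset.sum_congr rfl
        intro w _
        by_cases h : (∀ p ∈ H, z p = false) ∧ ∀ p, p ∉ H → w p = z p
        · rw [if_pos h, if_pos h, if_pos h]
          ring
        · rw [if_neg h, if_neg h, if_neg h]
          ring
      have e' : normSqSum (fun z =>
          oneQubitLayer (fun p => if p ∈ H then rowMat false (a p) else 1) φ z -
            ω * oneQubitLayer (fun p => if p ∈ H then rowMat false (b p) else 1) φ z)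
          = ∑ z : Q → Bool, Complex.normSq (∑ w : Q → Bool,
              if ((∀ p ∈ H, z p = false) ∧ ∀ p, p ∉ H → w p = z p)
                then (fun w => gm_P H a w - ω * gm_P H b w) w * φ w else 0) := by
        unfold normSqSum
        apply Finset.sum_congr rfl
        intro z _
        exact congrArg Complex.normSq (e z)
      rw [e']
      exact gm_bound H _ hV2 φ

end Vale.Agent.Lib.P368
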