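import Vale.Agent.Lib.P368.Gen.Defs

/-!
# P368, any depth: signed sums of a bounded nonnegative function
-/

namespace Vale.Agent.Lib.P368

open Finset

variable {Q : Type} [Fintype Q] [DecidableEq Q]

/-- The two-sided bound for one term, for a function with values in `[0, c]`. -/
theorem gq_term (W G c : ℝ) (h0 : 0 ≤ G) (h1 : G ≤ c) :
    -((|W| - W) / 2 * c) ≤ W * G ∧ W * G ≤ (|W| + W) / 2 * c := by
  rcases le_total 0 W with hW | hW
  · rw [abs_of_nonneg hW]
    constructor
    · nlinarith
    · nlinarith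
  · rw [abs_of_nonpos hW]
    constructor
    · nlinarith
    · nlinarith

theorem abs_sum_wprod_le (τ : Q → Bool) (G : (Q → Bool) → ℝ) (c : ℝ)
    (hG : ∀ y, 0 ≤ G y ∧ G y ≤ c) :
    |∑ y : Q → Bool, wprod τ y * G y| ≤
      2 ^ ((univ.filter fun p => τ p = true).card - 1) * c := by
  have hc : 0 ≤ c := le_trans (hG (fun _ => false)).1 (hG (fun _ => false)).2
  have hterm : ∀ y : Q → Bool,
      -((|wprod τ y| - wprod τ y) / 2 * c) ≤ wprod τ y * G y ∧
        wprod τ y * G y ≤ (|wprod τ y| + wprod τ y) / 2 * c :=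
    fun y => gq_term _ _ _ (hG y).1 (hG y).2
  have hup : ∑ y : Q → Bool, wprod τ y * G y
      ≤ ((∑ y : Q → Bool, |wprod τ y|) + ∑ y : Q → Bool, wprod τ y) / 2 * c := by
    rw [← Finset.sum_add_distrib, Finset.sum_div, Finset.sum_mul]
    exact Finset.sum_le_sum (fun y _ => (hterm y).2)
  have hlo : -(((∑ y : Q → Bool, |wprod τ y|) - ∑ y : Q → Bool, wprod τ y) / 2 * c)
      ≤ ∑ y : Q → Bool, wprod τ y * G y := by
    rw [← Finset.sum_sub_distrib, Finset.sum_div, Finset.sum_mul, ← Finset.sum_neg_distrib]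
    exact Finset.sum_le_sum (fun y _ => (hterm y).1)
  have habs : ∑ y : Q → Bool, |wprod τ y| = 2 ^ (univ.filter fun p => τ p = true).card := by
    unfold wprod
    exact b2_sum_abs_weight τ
  have hsum : ∑ y : Q → Bool, wprod τ y
      = if (univ.filter fun p => τ p = true).card = 0 then 1 else 0 := by
    unfold wprod
    exact b2_sum_weight τ
  rw [habs, hsum] at hup hlo
  rw [abs_le]
  rcases Nat.eq_zero_or_pos (univ.filter fun p => τ p = true).card with hk | hk
  · rw [hk] at hup hlo ⊢
    simp only [if_true, pow_zero] at hup hlo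
    simp only [Nat.zero_sub, pow_zero]
    constructor
    · linarith
    · linarith
  · obtain ⟨j, hj⟩ : ∃ j, (univ.filter fun p => τ p = true).card = j + 1 :=
      ⟨(univ.filter fun p => τ p = true).card - 1, by omega⟩
    rw [hj] at hup hlo ⊢
    have hne : ¬ (j + 1 = 0) := by omega
    simp only [if_neg hne] at hup hlo
    rw [Nat.add_sub_cancel]
    rw [pow_succ] at hup hlo
    constructor
    · linarith
    · linarith

end Vale.Agent.Lib.P368
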