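import Vale.Agent.Lib.P368.Gen.GProp
import Vale.Agent.Lib.P368.Gen.GPair
import Vale.Agent.Lib.P368.Gen.GMixed

/-!
# P368, any depth: the pairing bound for the signed sum of expectations
-/

namespace Vale.Agent.Lib.P368

open Finset

variable {Q : Type} [Fintype Q] [DecidableEq Q]

/-- Polarization: the real part of `ω` times the pairing of two vectors is a quarter of the
difference of the squared norms of `α + ω β` and `α - ω β`. -/
theorem gd_polar (α β : StateVec Q) (ω : ℂ) :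
    (ω * ip α β).re =
      (normSqSum (fun z => α z + ω * β z) - normSqSum (fun z => α z - ω * β z)) / 4 := by
  unfold ip normSqSum
  rw [Finset.mul_sum, Complex.re_sum, ← Finset.sum_sub_distrib, Finset.sum_div]
  refine Finset.sum_congr rfl fun z _ => ?_
  simp only [Complex.normSq_apply, Complex.mul_re, Complex.mul_im, Complex.add_re,
    Complex.add_im, Complex.sub_re, Complex.sub_im, Complex.conj_re, Complex.conj_im]
  ring

/-- The squared norm of a vector is nonnegative. -/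
theorem gd_normSqSum_nonneg (φ : StateVec Q) : 0 ≤ normSqSum φ :=
  Finset.sum_nonneg fun _ _ => Complex.normSq_nonneg _

/-- The bound for the real part of the signed sum after a rotation by a unit complex number. -/
theorem gd_re_bound (τ : Q → Bool) (O : Q → Matrix Bool Bool ℂ)
    (L : Finset (Finset Q)) (u : Q → Matrix Bool Bool ℂ) (hO : ∀ p, Good (O p))
    (hu : ∀ p, u p ∈ Matrix.unitaryGroup Bool ℂ) (ω : ℂ) (hω : ‖ω‖ = 1) :
    (ω * sigExp τ O L u).re ≤ 2 ^ ((univ.filter fun p => τ p = true).card - 1) := by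
  -- the data of the good matrices
  have hdata : ∀ p, ∃ (m : Matrix Bool Bool ℂ) (a b : Bool → ℂ),
      (IsPos (O p) → IsContr m ∧ O p = m.conjTranspose * m) ∧
      (¬ IsPos (O p) → Complex.normSq (a false) + Complex.normSq (a true) ≤ 1 ∧
        Complex.normSq (b false) + Complex.normSq (b true) ≤ 1 ∧
        O p = fun i j => a i * (starRingEnd ℂ) (b j)) := by
    intro p
    by_cases hp : IsPos (O p)
    · obtain ⟨m, hm, hO'⟩ := hp
      exact ⟨m, fun _ => 0, fun _ => 0, fun _ => ⟨hm, hO'⟩, fun h => absurd ⟨m, hm, hO'⟩ h⟩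
    · rcases hO p with h | h
      · exact absurd h hp
      · obtain ⟨a, b, ha, hb, hO'⟩ := h
        exact ⟨1, a, b, fun h => absurd h hp, fun _ => ⟨ha, hb, hO'⟩⟩
  choose m a b hpos hr1 using hdata
  obtain ⟨H, hH⟩ : ∃ H : Finset Q, ∀ p, p ∈ H ↔ ¬ IsPos (O p) := by
    classical
    exact ⟨univ.filter (fun p => ¬ IsPos (O p)), fun p => by simp⟩
  obtain ⟨a', ha'⟩ : ∃ a' : Q → Bool → ℂ, a' = fun p j => (starRingEnd ℂ) (a p j) := ⟨_, rfl⟩
  obtain ⟨b', hb'⟩ : ∃ b' : Q → Bool → ℂ, b' = fun p j => (starRingEnd ℂ) (b p j) := ⟨_, rfl⟩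
  have hna : ∀ p ∈ H, Complex.normSq (a' p false) + Complex.normSq (a' p true) ≤ 1 := by
    intro p hp
    rw [ha']
    simp only [Complex.normSq_conj]
    exact (hr1 p ((hH p).1 hp)).1
  have hnb : ∀ p ∈ H, Complex.normSq (b' p false) + Complex.normSq (b' p true) ≤ 1 := by
    intro p hp
    rw [hb']
    simp only [Complex.normSq_conj]
    exact (hr1 p ((hH p).1 hp)).2.1
  obtain ⟨N₁, N₂, hN₁, hN₂, hN, hmix⟩ := mixed_bound H a' b' hna hnb ω hω
  obtain ⟨ΛA, hΛA⟩ : ∃ ΛA : Q → Matrix Bool Bool ℂ,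
      ΛA = fun p => if p ∈ H then rowMat false (a' p) else 1 := ⟨_, rfl⟩
  obtain ⟨ΛB, hΛB⟩ : ∃ ΛB : Q → Matrix Bool Bool ℂ,
      ΛB = fun p => if p ∈ H then rowMat false (b' p) else 1 := ⟨_, rfl⟩
  obtain ⟨M, hM⟩ : ∃ M : Q → Matrix Bool Bool ℂ,
      M = fun p => if p ∈ H then 1 else m p := ⟨_, rfl⟩
  have hmix' : ∀ φ : StateVec Q,
      normSqSum (fun z => oneQubitLayer ΛA φ z + ω * oneQubitLayer ΛB φ z) ≤
        N₁ * normSqSum φ ∧
      normSqSum (fun z => oneQubitLayer ΛA φ z - ω * oneQubitLayer ΛB φ z) ≤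
        N₂ * normSqSum φ := by
    subst hΛA hΛB
    exact hmix
  have hMc : ∀ p, IsContr (M p) := by
    intro p
    rw [hM]
    by_cases hp : p ∈ H
    · simp only [if_pos hp]
      exact isContr_one
    · simp only [if_neg hp]
      exact (hpos p (not_not.1 (fun h => hp ((hH p).2 h)))).1
  have hfac : ∀ p, (ΛA p * M p).conjTranspose * (ΛB p * M p) = O p := by
    intro p
    rw [hΛA, hΛB, hM]
    by_cases hp : p ∈ H
    · simp only [if_pos hp, mul_one]
      rw [(hr1 p ((hH p).1 hp)).2.2, ha', hb']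
      ext i j
      simp [Matrix.mul_apply, Matrix.conjTranspose_apply, rowMat]
    · simp only [if_neg hp, one_mul]
      exact (hpos p (not_not.1 (fun h => hp ((hH p).2 h)))).2.symm
  -- the vectors
  have hψ : ∀ y : Q → Bool, normSqSum (czLayer L (oneQubitLayer u (basisState y))) = 1 := by
    intro y
    rw [normSqSum_czLayer, normSqSum_oneQubitLayer u hu, normSqSum_basisState]
  have hφ1 : ∀ y : Q → Bool,
      normSqSum (oneQubitLayer M (czLayer L (oneQubitLayer u (basisState y)))) ≤ 1 := by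
    intro y
    exact (normSqSum_oneQubitLayer_le M hMc _).trans (hψ y).le
  have hexp : ∀ y : Q → Bool, expVal O (czLayer L (oneQubitLayer u (basisState y))) =
      ip (oneQubitLayer ΛA (oneQubitLayer M (czLayer L (oneQubitLayer u (basisState y)))))
        (oneQubitLayer ΛB (oneQubitLayer M (czLayer L (oneQubitLayer u (basisState y))))) := by
    intro y
    rw [oneQubitLayer_comp ΛA M, oneQubitLayer_comp ΛB M, ← expVal_eq_ip]
    congr 1
    funext p
    exact (hfac p).symm
  obtain ⟨G₁, hG₁def⟩ : ∃ G₁ : (Q → Bool) → ℝ, G₁ = fun y => normSqSum (fun z =>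
      oneQubitLayer ΛA (oneQubitLayer M (czLayer L (oneQubitLayer u (basisState y)))) z +
        ω * oneQubitLayer ΛB
          (oneQubitLayer M (czLayer L (oneQubitLayer u (basisState y)))) z) := ⟨_, rfl⟩
  obtain ⟨G₂, hG₂def⟩ : ∃ G₂ : (Q → Bool) → ℝ, G₂ = fun y => normSqSum (fun z =>
      oneQubitLayer ΛA (oneQubitLayer M (czLayer L (oneQubitLayer u (basisState y)))) z -
        ω * oneQubitLayer ΛB
          (oneQubitLayer M (czLayer L (oneQubitLayer u (basisState y)))) z) := ⟨_, rfl⟩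
  have hre : ∀ y : Q → Bool,
      (ω * expVal O (czLayer L (oneQubitLayer u (basisState y)))).re = (G₁ y - G₂ y) / 4 := by
    intro y
    rw [hexp y, hG₁def, hG₂def]
    exact gd_polar _ _ ω
  have hsum : (ω * sigExp τ O L u).re =
      (∑ y : Q → Bool, wprod τ y * G₁ y - ∑ y : Q → Bool, wprod τ y * G₂ y) / 4 := by
    unfold sigExp
    rw [Finset.mul_sum, Complex.re_sum, ← Finset.sum_sub_distrib, Finset.sum_div]
    refine Finset.sum_congr rfl fun y _ => ?_
    rw [mul_left_comm, Complex.re_ofReal_mul, hre y]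
    ring
  have hG₁ : ∀ y, 0 ≤ G₁ y ∧ G₁ y ≤ N₁ := by
    intro y
    rw [hG₁def]
    refine ⟨gd_normSqSum_nonneg _, ?_⟩
    exact ((hmix' _).1).trans (mul_le_of_le_one_right hN₁ (hφ1 y))
  have hG₂ : ∀ y, 0 ≤ G₂ y ∧ G₂ y ≤ N₂ := by
    intro y
    rw [hG₂def]
    refine ⟨gd_normSqSum_nonneg _, ?_⟩
    exact ((hmix' _).2).trans (mul_le_of_le_one_right hN₂ (hφ1 y))
  have h1 := abs_sum_wprod_le τ G₁ N₁ hG₁
  have h2 := abs_sum_wprod_le τ G₂ N₂ hG₂
  have h3 := le_abs_self (∑ y : Q → Bool, wprod τ y * G₁ y)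
  have h4 := neg_abs_le (∑ y : Q → Bool, wprod τ y * G₂ y)
  rw [hsum]
  have hP0 : (0 : ℝ) ≤ 2 ^ ((univ.filter fun p => τ p = true).card - 1) := by positivity
  have h5 := mul_le_mul_of_nonneg_left hN hP0
  linarith

/-- With `k` flagged qubits the signed sum of expectations of a product of good matrices is at
most `2^(k-1)` in modulus (at most `1` when `k = 0`). -/
theorem norm_sigExp_le_two_pow (τ : Q → Bool) (O : Q → Matrix Bool Bool ℂ)
    (L : Finset (Finset Q)) (u : Q → Matrix Bool Bool ℂ) (hO : ∀ p, Good (O p))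
    (hu : ∀ p, u p ∈ Matrix.unitaryGroup Bool ℂ) :
    ‖sigExp τ O L u‖ ≤ 2 ^ ((univ.filter fun p => τ p = true).card - 1) := by
  by_cases hS : sigExp τ O L u = 0
  · rw [hS, norm_zero]
    positivity
  · have hne : ‖sigExp τ O L u‖ ≠ 0 := norm_ne_zero_iff.2 hS
    have hneC : ((‖sigExp τ O L u‖ : ℝ) : ℂ) ≠ 0 := Complex.ofReal_ne_zero.2 hne
    have hω : ‖(starRingEnd ℂ) (sigExp τ O L u) / ((‖sigExp τ O L u‖ : ℝ) : ℂ)‖ = 1 := by
      rw [norm_div, RCLike.norm_conj, Complex.norm_real, norm_norm, div_self hne]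
    have hmul : (starRingEnd ℂ) (sigExp τ O L u) / ((‖sigExp τ O L u‖ : ℝ) : ℂ) *
        sigExp τ O L u = ((‖sigExp τ O L u‖ : ℝ) : ℂ) := by
      rw [div_mul_eq_mul_div, Complex.conj_mul', sq, mul_div_assoc, div_self hneC, mul_one]
    have h := gd_re_bound τ O L u hO hu _ hω
    rw [hmul, Complex.ofReal_re] at h
    exact h

end Vale.Agent.Lib.P368
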