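import Vale.Agent.Lib.P368.Gen.Defs

/-!
# P368, any depth: closure properties of the good one-qubit matrices
-/

namespace Vale.Agent.Lib.P368

open Finset

theorem isContr_conjTranspose (m : Matrix Bool Bool ℂ) (hm : IsContr m) :
    IsContr m.conjTranspose := by
  intro x0 x1
  simp only [Matrix.conjTranspose_apply, Complex.star_def]
  obtain ⟨y0, hy0⟩ : ∃ y0 : ℂ, y0 = (starRingEnd ℂ) (m false false) * x0
      + (starRingEnd ℂ) (m true false) * x1 := ⟨_, rfl⟩
  obtain ⟨y1, hy1⟩ : ∃ y1 : ℂ, y1 = (starRingEnd ℂ) (m false true) * x0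
      + (starRingEnd ℂ) (m true true) * x1 := ⟨_, rfl⟩
  rw [← hy0, ← hy1]
  have hmy := hm y0 y1
  obtain ⟨z0, hz0⟩ : ∃ z0 : ℂ, z0 = m false false * y0 + m false true * y1 := ⟨_, rfl⟩
  obtain ⟨z1, hz1⟩ : ∃ z1 : ℂ, z1 = m true false * y0 + m true true * y1 := ⟨_, rfl⟩
  rw [← hz0, ← hz1] at hmy
  have c0 : (starRingEnd ℂ) y0 = m false false * (starRingEnd ℂ) x0
      + m true false * (starRingEnd ℂ) x1 := by
    rw [hy0]
    simp only [map_add, map_mul, Complex.conj_conj]
  have c1 : (starRingEnd ℂ) y1 = m false true * (starRingEnd ℂ) x0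
      + m true true * (starRingEnd ℂ) x1 := by
    rw [hy1]
    simp only [map_add, map_mul, Complex.conj_conj]
  have hid : ((Complex.normSq y0 + Complex.normSq y1 : ℝ) : ℂ)
      = (starRingEnd ℂ) x0 * z0 + (starRingEnd ℂ) x1 * z1 := by
    push_cast
    rw [Complex.normSq_eq_conj_mul_self, Complex.normSq_eq_conj_mul_self, hz0, hz1, c0, c1]
    ring
  have hcs := ct_cs ((starRingEnd ℂ) x0) ((starRingEnd ℂ) x1) z0 z1
  rw [← hid, Complex.normSq_ofReal, Complex.normSq_conj, Complex.normSq_conj] at hcs
  have hY : 0 ≤ Complex.normSq y0 + Complex.normSq y1 :=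
    add_nonneg (Complex.normSq_nonneg _) (Complex.normSq_nonneg _)
  have hX : 0 ≤ Complex.normSq x0 + Complex.normSq x1 :=
    add_nonneg (Complex.normSq_nonneg _) (Complex.normSq_nonneg _)
  by_contra hlt
  have hlt' : Complex.normSq x0 + Complex.normSq x1 < Complex.normSq y0 + Complex.normSq y1 :=
    lt_of_not_ge hlt
  nlinarith [mul_le_mul_of_nonneg_left hmy hX, mul_pos (sub_pos.mpr hlt') (lt_of_le_of_lt hX hlt')]

theorem good_of_contr (m : Matrix Bool Bool ℂ) (hm : IsContr m) :
    Good (m.conjTranspose * m) :=
  Or.inl ⟨m, hm, rfl⟩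

theorem good_one : Good (1 : Matrix Bool Bool ℂ) :=
  Or.inl ⟨1, isContr_one, by simp⟩

/-- The last column of `m† m` has norm at most one. -/
theorem gg_col_bound (m : Matrix Bool Bool ℂ) (hm : IsContr m) :
    Complex.normSq ((m.conjTranspose * m) false true)
      + Complex.normSq ((m.conjTranspose * m) true true) ≤ 1 := by
  have h1 := isContr_conjTranspose m hm (m false true) (m true true)
  have h2 := hm 0 1
  simp only [mul_zero, mul_one, zero_add, map_zero, map_one] at h2
  have e0 : (m.conjTranspose * m) false true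
      = m.conjTranspose false false * m false true + m.conjTranspose false true * m true true := by
    rw [Matrix.mul_apply, Fintype.sum_bool]
    ring
  have e1 : (m.conjTranspose * m) true true
      = m.conjTranspose true false * m false true + m.conjTranspose true true * m true true := by
    rw [Matrix.mul_apply, Fintype.sum_bool]
    ring
  rw [e0, e1]
  exact le_trans h1 h2

/-- The matrix `m† m` is Hermitian, entrywise. -/
theorem gg_herm (m : Matrix Bool Bool ℂ) (i j : Bool) :
    (starRingEnd ℂ) ((m.conjTranspose * m) j i) = (m.conjTranspose * m) i j := by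
  simp only [Matrix.mul_apply, Fintype.sum_bool, Matrix.conjTranspose_apply, Complex.star_def,
    map_add, map_mul, Complex.conj_conj]
  ring

theorem good_conj (O v : Matrix Bool Bool ℂ) (hO : Good O)
    (hv : v ∈ Matrix.unitaryGroup Bool ℂ) : Good (v.conjTranspose * O * v) := by
  have hvc : IsContr v := isContr_of_unitary v hv
  rcases hO with ⟨m, hm, rfl⟩ | ⟨a, b, ha, hb, hOdef⟩
  · refine Or.inl ⟨m * v, isContr_mul m v hm hvc, ?_⟩
    rw [Matrix.conjTranspose_mul]
    simp only [Matrix.mul_assoc]
  · have hvs : IsContr v.conjTranspose := isContr_conjTranspose v hvc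
    have hO' : ∀ i j, O i j = a i * (starRingEnd ℂ) (b j) := fun i j => by rw [hOdef]
    refine Or.inr ⟨fun i => v.conjTranspose i false * a false + v.conjTranspose i true * a true,
      fun j => v.conjTranspose j false * b false + v.conjTranspose j true * b true, ?_, ?_, ?_⟩
    · exact le_trans (hvs (a false) (a true)) ha
    · exact le_trans (hvs (b false) (b true)) hb
    · funext i j
      simp only [Matrix.mul_apply, Fintype.sum_bool, Matrix.conjTranspose_apply, Complex.star_def,
        hO', map_add, map_mul, Complex.conj_conj]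
      ring

theorem good_projOne_mul (O : Matrix Bool Bool ℂ) (hO : Good O) : Good (projOne * O) := by
  have hpo : ∀ i j, (projOne * O) i j = if i = true then O true j else 0 := by
    intro i j
    rw [Matrix.mul_apply, Fintype.sum_bool]
    cases i <;> simp [projOne]
  rcases hO with ⟨m, hm, rfl⟩ | ⟨a, b, ha, hb, rfl⟩
  · refine Or.inr ⟨fun i => if i = true then 1 else 0,
      fun j => (m.conjTranspose * m) j true, ?_, gg_col_bound m hm, ?_⟩
    · simp
    · funext i j
      rw [hpo, gg_herm]
      cases i <;> simp
  · refine Or.inr ⟨fun i => if i = true then a true else 0, b, ?_, hb, ?_⟩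
    · simp only [Bool.false_eq_true, if_false, if_true, map_zero, zero_add]
      linarith [Complex.normSq_nonneg (a false)]
    · funext i j
      rw [hpo]
      cases i <;> simp

theorem good_mul_projOne (O : Matrix Bool Bool ℂ) (hO : Good O) : Good (O * projOne) := by
  have hop : ∀ i j, (O * projOne) i j = if j = true then O i true else 0 := by
    intro i j
    rw [Matrix.mul_apply, Fintype.sum_bool]
    cases j <;> simp [projOne]
  rcases hO with ⟨m, hm, rfl⟩ | ⟨a, b, ha, hb, rfl⟩
  · refine Or.inr ⟨fun i => (m.conjTranspose * m) i true,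
      fun j => if j = true then 1 else 0, gg_col_bound m hm, ?_, ?_⟩
    · simp
    · funext i j
      rw [hop]
      cases j <;> simp
  · refine Or.inr ⟨a, fun j => if j = true then b true else 0, ha, ?_, ?_⟩
    · simp only [Bool.false_eq_true, if_false, if_true, map_zero, zero_add]
      linarith [Complex.normSq_nonneg (b false)]
    · funext i j
      rw [hop]
      cases j <;> simp

end Vale.Agent.Lib.P368
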