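import Vale.Agent.Lib.P368.Gen.Defs

/-!
# P368, any depth: one-qubit estimates for good matrices, first part
-/

namespace Vale.Agent.Lib.P368

open Finset

/-- A complex number of squared norm at most one has norm at most one. -/
theorem gs_norm_le_one (z : ℂ) (h : Complex.normSq z ≤ 1) : ‖z‖ ≤ 1 := by
  rw [Complex.normSq_eq_norm_sq] at h
  exact (sq_le_one_iff₀ (norm_nonneg z)).mp h

theorem gs_wt_ff : wt false false = 1 := by simp [wt]

theorem gs_wt_ft : wt false true = 0 := by simp [wt]

theorem gs_wt_tf : wt true false = 1 := by simp [wt]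

theorem gs_wt_tt : wt true true = -1 := by simp [wt]

/-- Positive case: the full sum agrees with the one of the four-fold expansion. -/
theorem gs_K0_pos (t : Bool) (m u : Matrix Bool Bool ℂ) :
    K0 (kapO t (m.conjTranspose * m) u) = K0 (kap t m u) := by
  simp only [K0, kapO, kap, Fintype.sum_prod_type, Fintype.sum_bool, Matrix.mul_apply,
    Matrix.conjTranspose_apply, RCLike.star_def]
  simp only [Bool.true_eq_false, if_false, if_true]
  ring

/-- Positive case: the sum over `w = z = 1` agrees with the one of the four-fold expansion. -/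
theorem gs_K3_pos (t : Bool) (m u : Matrix Bool Bool ℂ) :
    K3 (kapO t (m.conjTranspose * m) u) = K3 (kap t m u) := by
  simp only [K3, kapO, kap, Fintype.sum_prod_type, Fintype.sum_bool, Matrix.mul_apply,
    Matrix.conjTranspose_apply, RCLike.star_def]
  simp only [Bool.true_eq_false, Bool.false_eq_true, false_and, and_false, and_self, if_false,
    if_true]
  ring

/-- Rank-one case: the full sum as a signed pairing of the two rotated vectors. -/
theorem gs_K0_r1 (t : Bool) (a b : Bool → ℂ) (u : Matrix Bool Bool ℂ) :
    K0 (kapO t (fun i j => a i * (starRingEnd ℂ) (b j)) u)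
      = ((wt t false : ℝ) : ℂ) *
          ((star u) false false * a false + (star u) false true * a true) *
          (starRingEnd ℂ) ((star u) false false * b false + (star u) false true * b true)
        + ((wt t true : ℝ) : ℂ) *
          ((star u) true false * a false + (star u) true true * a true) *
          (starRingEnd ℂ) ((star u) true false * b false + (star u) true true * b true) := by
  simp only [K0, kapO, Fintype.sum_prod_type, Fintype.sum_bool, Matrix.star_apply,
    RCLike.star_def, map_add, map_mul, Complex.conj_conj]
  simp only [Bool.true_eq_false, if_false, if_true]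
  ring

/-- Rank-one case: the sum over `w = z = 1`. -/
theorem gs_K3_r1 (t : Bool) (a b : Bool → ℂ) (u : Matrix Bool Bool ℂ) :
    K3 (kapO t (fun i j => a i * (starRingEnd ℂ) (b j)) u)
      = a true * (starRingEnd ℂ) (b true) *
        ((wt t false * Complex.normSq (u true false) +
          wt t true * Complex.normSq (u true true) : ℝ) : ℂ) := by
  simp only [K3, kapO, Fintype.sum_prod_type, Fintype.sum_bool]
  simp only [Bool.true_eq_false, Bool.false_eq_true, false_and, and_false, and_self, if_false,
    if_true]
  push_cast
  simp only [Complex.normSq_eq_conj_mul_self]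
  ring

theorem norm_K0_kapO_le (t : Bool) (O u : Matrix Bool Bool ℂ) (hO : Good O)
    (hu : u ∈ Matrix.unitaryGroup Bool ℂ) : ‖K0 (kapO t O u)‖ ≤ 1 := by
  rcases hO with ⟨m, hm, rfl⟩ | ⟨a, b, ha, hb, rfl⟩
  · rw [gs_K0_pos]
    exact norm_K0_kap_le t m u hm hu
  · rw [gs_K0_r1]
    have hsu : star u ∈ Matrix.unitaryGroup Bool ℂ := Unitary.star_mem hu
    have hα := sb_unitary_norm (star u) hsu (a false) (a true)
    have hβ := sb_unitary_norm (star u) hsu (b false) (b true)
    generalize (star u) false false * a false + (star u) false true * a true = α0 at hα ⊢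
    generalize (star u) true false * a false + (star u) true true * a true = α1 at hα ⊢
    generalize (star u) false false * b false + (star u) false true * b true = β0 at hβ ⊢
    generalize (star u) true false * b false + (star u) true true * b true = β1 at hβ ⊢
    have hα0 := Complex.normSq_nonneg α0
    have hα1 := Complex.normSq_nonneg α1
    have hβ0 := Complex.normSq_nonneg β0
    have hβ1 := Complex.normSq_nonneg β1
    apply gs_norm_le_one
    cases t
    · rw [gs_wt_ff, gs_wt_ft]
      have e : ((1 : ℝ) : ℂ) * α0 * (starRingEnd ℂ) β0 + ((0 : ℝ) : ℂ) * α1 * (starRingEnd ℂ) β1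
          = α0 * (starRingEnd ℂ) β0 := by
        push_cast
        ring
      rw [e, Complex.normSq_mul, Complex.normSq_conj]
      nlinarith
    · rw [gs_wt_tf, gs_wt_tt]
      have e : ((1 : ℝ) : ℂ) * α0 * (starRingEnd ℂ) β0
          + ((-1 : ℝ) : ℂ) * α1 * (starRingEnd ℂ) β1
          = α0 * (starRingEnd ℂ) β0 + (-α1) * (starRingEnd ℂ) β1 := by
        push_cast
        ring
      have h := sb_cs α0 (-α1) β0 β1
      rw [Complex.normSq_neg] at h
      rw [e]
      nlinarith

theorem norm_K3_kapO_le (t : Bool) (O u : Matrix Bool Bool ℂ) (hO : Good O)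
    (hu : u ∈ Matrix.unitaryGroup Bool ℂ) : ‖K3 (kapO t O u)‖ ≤ 1 := by
  rcases hO with ⟨m, hm, rfl⟩ | ⟨a, b, ha, hb, rfl⟩
  · rw [gs_K3_pos]
    exact norm_K3_kap_le t m u hm hu
  · rw [gs_K3_r1, norm_mul, norm_mul, RCLike.norm_conj, Complex.norm_real, Real.norm_eq_abs]
    have hrow := sg_row_true u hu
    have hp := Complex.normSq_nonneg (u true false)
    have hq := Complex.normSq_nonneg (u true true)
    have ha1 : ‖a true‖ ≤ 1 :=
      gs_norm_le_one _ (by linarith [Complex.normSq_nonneg (a false)])
    have hb1 : ‖b true‖ ≤ 1 :=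
      gs_norm_le_one _ (by linarith [Complex.normSq_nonneg (b false)])
    have hr : |wt t false * Complex.normSq (u true false) +
        wt t true * Complex.normSq (u true true)| ≤ 1 := by
      rw [abs_le]
      cases t
      · rw [gs_wt_ff, gs_wt_ft]
        constructor <;> linarith
      · rw [gs_wt_tf, gs_wt_tt]
        constructor <;> linarith
    have hab : ‖a true‖ * ‖b true‖ ≤ 1 := by
      calc ‖a true‖ * ‖b true‖ ≤ 1 * 1 :=
            mul_le_mul ha1 hb1 (norm_nonneg _) zero_le_one
        _ = 1 := one_mul 1
    calc ‖a true‖ * ‖b true‖ * |wt t false * Complex.normSq (u true false) +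
          wt t true * Complex.normSq (u true true)|
        ≤ 1 * 1 := mul_le_mul hab hr (abs_nonneg _) zero_le_one
      _ = 1 := one_mul 1

theorem K0_kapO_triv : K0 (kapO false 1 1) = 1 := by
  simp [K0, kapO, wt, Fintype.sum_prod_type, Matrix.one_apply]

end Vale.Agent.Lib.P368
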