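import Vale.Agent.Lib.P368.Gen.Defs

/-!
# P368, any depth: one-qubit estimates for good matrices, second part
-/

namespace Vale.Agent.Lib.P368

open Finset

/-- The vector `s` of the rank-one case has norm at most one. -/
theorem gb_s_le (t : Bool) (u : Matrix Bool Bool ℂ) (hu : u ∈ Matrix.unitaryGroup Bool ℂ) :
    Complex.normSq (u false false * (((wt t false : ℝ) : ℂ) * (starRingEnd ℂ) (u true false)) +
        u false true * (((wt t true : ℝ) : ℂ) * (starRingEnd ℂ) (u true true))) +
      Complex.normSq (u true false * (((wt t false : ℝ) : ℂ) * (starRingEnd ℂ) (u true false)) +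
        u true true * (((wt t true : ℝ) : ℂ) * (starRingEnd ℂ) (u true true))) ≤ 1 := by
  rw [sb_unitary_norm u hu]
  have hrow := sb_row_true u hu
  rw [Complex.normSq_mul, Complex.normSq_mul, Complex.normSq_conj, Complex.normSq_conj,
    Complex.normSq_ofReal, Complex.normSq_ofReal]
  have h1 := sb_wt_sq t false
  have h2 := sb_wt_sq t true
  have h3 := Complex.normSq_nonneg (u true false)
  have h4 := Complex.normSq_nonneg (u true true)
  nlinarith

/-- Positive case: `K1` of the three-fold weight equals `K1` of the four-fold weight. -/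
theorem gb_K1_pos (t : Bool) (m u : Matrix Bool Bool ℂ) :
    K1 (kapO t (m.conjTranspose * m) u) = K1 (kap t m u) := by
  simp only [K1, kapO, kap, Fintype.sum_prod_type, Fintype.sum_bool, Matrix.mul_apply,
    Matrix.conjTranspose_apply, RCLike.star_def]
  simp only [Bool.false_eq_true, Bool.true_eq_false, if_false, if_true]
  ring

/-- Positive case: `K2` of the three-fold weight equals `K2` of the four-fold weight. -/
theorem gb_K2_pos (t : Bool) (m u : Matrix Bool Bool ℂ) :
    K2 (kapO t (m.conjTranspose * m) u) = K2 (kap t m u) := by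
  simp only [K2, kapO, kap, Fintype.sum_prod_type, Fintype.sum_bool, Matrix.mul_apply,
    Matrix.conjTranspose_apply, RCLike.star_def]
  simp only [Bool.false_eq_true, Bool.true_eq_false, if_false, if_true]
  ring

/-- Rank-one case: `K1` as a multiple of an inner product. -/
theorem gb_K1_r1 (t : Bool) (a b : Bool → ℂ) (u : Matrix Bool Bool ℂ) :
    K1 (kapO t (fun i j => a i * (starRingEnd ℂ) (b j)) u) =
      (starRingEnd ℂ) (b true) *
        (a false * (starRingEnd ℂ)
            (u false false * (((wt t false : ℝ) : ℂ) * (starRingEnd ℂ) (u true false)) +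
              u false true * (((wt t true : ℝ) : ℂ) * (starRingEnd ℂ) (u true true))) +
          a true * (starRingEnd ℂ)
            (u true false * (((wt t false : ℝ) : ℂ) * (starRingEnd ℂ) (u true false)) +
              u true true * (((wt t true : ℝ) : ℂ) * (starRingEnd ℂ) (u true true)))) := by
  simp only [K1, kapO, Fintype.sum_prod_type, Fintype.sum_bool]
  simp only [Bool.false_eq_true, Bool.true_eq_false, if_false, if_true, map_add, map_mul,
    Complex.conj_conj, Complex.conj_ofReal]
  ring

/-- Rank-one case: `K2` as a multiple of an inner product. -/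
theorem gb_K2_r1 (t : Bool) (a b : Bool → ℂ) (u : Matrix Bool Bool ℂ) :
    K2 (kapO t (fun i j => a i * (starRingEnd ℂ) (b j)) u) =
      a true *
        ((u false false * (((wt t false : ℝ) : ℂ) * (starRingEnd ℂ) (u true false)) +
              u false true * (((wt t true : ℝ) : ℂ) * (starRingEnd ℂ) (u true true))) *
            (starRingEnd ℂ) (b false) +
          (u true false * (((wt t false : ℝ) : ℂ) * (starRingEnd ℂ) (u true false)) +
              u true true * (((wt t true : ℝ) : ℂ) * (starRingEnd ℂ) (u true true))) *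
            (starRingEnd ℂ) (b true)) := by
  simp only [K2, kapO, Fintype.sum_prod_type, Fintype.sum_bool]
  simp only [Bool.false_eq_true, Bool.true_eq_false, if_false, if_true]
  ring

/-- A complex number whose squared norm is at most one has norm at most one. -/
theorem gb_norm_le_one (z : ℂ) (h : Complex.normSq z ≤ 1) : ‖z‖ ≤ 1 := by
  have hsq : ‖z‖ ^ 2 ≤ 1 := by
    rw [← Complex.normSq_eq_norm_sq]
    exact h
  exact (sq_le_one_iff₀ (norm_nonneg _)).mp hsq

/-- If `x ≤ 1` and `0 ≤ r ≤ p * q` with `p ≤ 1` and `0 ≤ q ≤ 1`, then `x * r ≤ 1`. -/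
theorem gb_three (x p q r : ℝ) (hx : x ≤ 1) (hp : p ≤ 1)
    (hq0 : 0 ≤ q) (hq : q ≤ 1) (hr0 : 0 ≤ r) (hr : r ≤ p * q) : x * r ≤ 1 := by
  have h1 : p * q ≤ 1 * 1 := mul_le_mul hp hq hq0 zero_le_one
  have h2 : r ≤ 1 := by linarith
  have h3 : x * r ≤ 1 * 1 := mul_le_mul hx h2 hr0 zero_le_one
  linarith

theorem norm_K1_kapO_le (t : Bool) (O u : Matrix Bool Bool ℂ) (hO : Good O)
    (hu : u ∈ Matrix.unitaryGroup Bool ℂ) : ‖K1 (kapO t O u)‖ ≤ 1 := by
  rcases hO with ⟨m, hm, rfl⟩ | ⟨a, b, ha, hb, rfl⟩
  · rw [gb_K1_pos]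
    exact norm_K1_kap_le t m u hm hu
  · apply gb_norm_le_one
    rw [gb_K1_r1, Complex.normSq_mul, Complex.normSq_conj]
    have hs := gb_s_le t u hu
    have hcs := sb_cs (a false) (a true)
      (u false false * (((wt t false : ℝ) : ℂ) * (starRingEnd ℂ) (u true false)) +
        u false true * (((wt t true : ℝ) : ℂ) * (starRingEnd ℂ) (u true true)))
      (u true false * (((wt t false : ℝ) : ℂ) * (starRingEnd ℂ) (u true false)) +
        u true true * (((wt t true : ℝ) : ℂ) * (starRingEnd ℂ) (u true true)))
    have hb0 := Complex.normSq_nonneg (b false)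
    exact gb_three _ _ _ _ (by linarith) ha
      (add_nonneg (Complex.normSq_nonneg _) (Complex.normSq_nonneg _)) hs
      (Complex.normSq_nonneg _) hcs

theorem norm_K2_kapO_le (t : Bool) (O u : Matrix Bool Bool ℂ) (hO : Good O)
    (hu : u ∈ Matrix.unitaryGroup Bool ℂ) : ‖K2 (kapO t O u)‖ ≤ 1 := by
  rcases hO with ⟨m, hm, rfl⟩ | ⟨a, b, ha, hb, rfl⟩
  · rw [gb_K2_pos]
    exact norm_K2_kap_le t m u hm hu
  · apply gb_norm_le_one
    rw [gb_K2_r1, Complex.normSq_mul]
    have hs := gb_s_le t u hu
    have hcs := sb_cs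
      (u false false * (((wt t false : ℝ) : ℂ) * (starRingEnd ℂ) (u true false)) +
        u false true * (((wt t true : ℝ) : ℂ) * (starRingEnd ℂ) (u true true)))
      (u true false * (((wt t false : ℝ) : ℂ) * (starRingEnd ℂ) (u true false)) +
        u true true * (((wt t true : ℝ) : ℂ) * (starRingEnd ℂ) (u true true)))
      (b false) (b true)
    have ha0 := Complex.normSq_nonneg (a false)
    exact gb_three _ _ _ _ (by linarith) hs
      (add_nonneg (Complex.normSq_nonneg _) (Complex.normSq_nonneg _)) hb
      (Complex.normSq_nonneg _) hcs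

end Vale.Agent.Lib.P368
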