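import Vale.Agent.Lib.P368.Gen.GExpand
import Vale.Agent.Lib.P368.Gen.GSingle
import Vale.Agent.Lib.P368.Gen.GSingleB
import Vale.Agent.Lib.P368.Gen.GGood
import Vale.Agent.Lib.P368.Gen.GBound

/-!
# P368, any depth: the signed sum of expectations after one entangling layer
-/

namespace Vale.Agent.Lib.P368

open Finset

variable {Q : Type} [Fintype Q] [DecidableEq Q]

theorem norm_gateSumO_le_nine (τ : Q → Bool) (O u : Q → Matrix Bool Bool ℂ)
    (hO : ∀ p, Good (O p)) (hu : ∀ p, u p ∈ Matrix.unitaryGroup Bool ℂ) (A : Finset Q) :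
    ‖gateSum (fun p => kapO (τ p) (O p) (u p)) A‖ ≤ 9 := by
  unfold gateSum
  have h0 : ‖∏ p ∈ A, K0 (kapO (τ p) (O p) (u p))‖ ≤ 1 := by
    rw [norm_prod]
    exact Finset.prod_le_one (fun p _ => norm_nonneg _)
      (fun p _ => norm_K0_kapO_le (τ p) (O p) (u p) (hO p) (hu p))
  have h1 : ‖∏ p ∈ A, K1 (kapO (τ p) (O p) (u p))‖ ≤ 1 := by
    rw [norm_prod]
    exact Finset.prod_le_one (fun p _ => norm_nonneg _)
      (fun p _ => norm_K1_kapO_le (τ p) (O p) (u p) (hO p) (hu p))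
  have h2 : ‖∏ p ∈ A, K2 (kapO (τ p) (O p) (u p))‖ ≤ 1 := by
    rw [norm_prod]
    exact Finset.prod_le_one (fun p _ => norm_nonneg _)
      (fun p _ => norm_K2_kapO_le (τ p) (O p) (u p) (hO p) (hu p))
  have h3 : ‖∏ p ∈ A, K3 (kapO (τ p) (O p) (u p))‖ ≤ 1 := by
    rw [norm_prod]
    exact Finset.prod_le_one (fun p _ => norm_nonneg _)
      (fun p _ => norm_K3_kapO_le (τ p) (O p) (u p) (hO p) (hu p))
  have e1 : ‖(2 : ℂ) * ∏ p ∈ A, K1 (kapO (τ p) (O p) (u p))‖ ≤ 2 := by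
    rw [norm_mul]
    have : ‖(2 : ℂ)‖ = 2 := by simp
    rw [this]
    linarith
  have e2 : ‖(2 : ℂ) * ∏ p ∈ A, K2 (kapO (τ p) (O p) (u p))‖ ≤ 2 := by
    rw [norm_mul]
    have : ‖(2 : ℂ)‖ = 2 := by simp
    rw [this]
    linarith
  have e3 : ‖(4 : ℂ) * ∏ p ∈ A, K3 (kapO (τ p) (O p) (u p))‖ ≤ 4 := by
    rw [norm_mul]
    have : ‖(4 : ℂ)‖ = 4 := by simp
    rw [this]
    linarith
  calc ‖∏ p ∈ A, K0 (kapO (τ p) (O p) (u p)) - 2 * ∏ p ∈ A, K1 (kapO (τ p) (O p) (u p))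
          - 2 * ∏ p ∈ A, K2 (kapO (τ p) (O p) (u p))
          + 4 * ∏ p ∈ A, K3 (kapO (τ p) (O p) (u p))‖
      ≤ ‖∏ p ∈ A, K0 (kapO (τ p) (O p) (u p)) - 2 * ∏ p ∈ A, K1 (kapO (τ p) (O p) (u p))
          - 2 * ∏ p ∈ A, K2 (kapO (τ p) (O p) (u p))‖
          + ‖(4 : ℂ) * ∏ p ∈ A, K3 (kapO (τ p) (O p) (u p))‖ := norm_add_le _ _
    _ ≤ (‖∏ p ∈ A, K0 (kapO (τ p) (O p) (u p)) - 2 * ∏ p ∈ A, K1 (kapO (τ p) (O p) (u p))‖
          + ‖(2 : ℂ) * ∏ p ∈ A, K2 (kapO (τ p) (O p) (u p))‖)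
          + ‖(4 : ℂ) * ∏ p ∈ A, K3 (kapO (τ p) (O p) (u p))‖ := by
        gcongr
        exact norm_sub_le _ _
    _ ≤ ((‖∏ p ∈ A, K0 (kapO (τ p) (O p) (u p))‖
          + ‖(2 : ℂ) * ∏ p ∈ A, K1 (kapO (τ p) (O p) (u p))‖)
          + ‖(2 : ℂ) * ∏ p ∈ A, K2 (kapO (τ p) (O p) (u p))‖)
          + ‖(4 : ℂ) * ∏ p ∈ A, K3 (kapO (τ p) (O p) (u p))‖ := by
        gcongr
        exact norm_sub_le _ _
    _ ≤ 9 := by linarith

/-- The contribution of one gate is the signed sum for the circuit restricted to that gate. -/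
theorem gateSumO_eq_sigExp (τ : Q → Bool) (O u : Q → Matrix Bool Bool ℂ) (A : Finset Q) :
    gateSum (fun p => kapO (τ p) (O p) (u p)) A =
      sigExp (fun p => decide (p ∈ A) && τ p) (fun p => if p ∈ A then O p else 1) {A}
        (fun p => if p ∈ A then u p else 1) := by
  rw [sigExp_eq_S4, S4_factor _ {A} (by simp)]
  rw [Finset.prod_singleton, Finset.singleton_biUnion]
  have h1 : ∏ p ∈ univ \ id A, K0 (kapO (decide (p ∈ A) && τ p) (if p ∈ A then O p else 1)
      (if p ∈ A then u p else 1)) = 1 := by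
    apply Finset.prod_eq_one
    intro p hp
    have hpA : p ∉ A := by
      simpa using hp
    simp only [hpA, decide_false, Bool.false_and, if_false]
    exact K0_kapO_triv
  rw [h1, mul_one]
  have hc : ∀ p ∈ A, kapO (decide (p ∈ A) && τ p) (if p ∈ A then O p else 1)
      (if p ∈ A then u p else 1) = kapO (τ p) (O p) (u p) := by
    intro p hp
    simp [hp]
  have e0 : ∏ p ∈ A, K0 (kapO (decide (p ∈ A) && τ p) (if p ∈ A then O p else 1)
      (if p ∈ A then u p else 1)) = ∏ p ∈ A, K0 (kapO (τ p) (O p) (u p)) :=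
    Finset.prod_congr rfl (fun p hp => by rw [hc p hp])
  have e1 : ∏ p ∈ A, K1 (kapO (decide (p ∈ A) && τ p) (if p ∈ A then O p else 1)
      (if p ∈ A then u p else 1)) = ∏ p ∈ A, K1 (kapO (τ p) (O p) (u p)) :=
    Finset.prod_congr rfl (fun p hp => by rw [hc p hp])
  have e2 : ∏ p ∈ A, K2 (kapO (decide (p ∈ A) && τ p) (if p ∈ A then O p else 1)
      (if p ∈ A then u p else 1)) = ∏ p ∈ A, K2 (kapO (τ p) (O p) (u p)) :=
    Finset.prod_congr rfl (fun p hp => by rw [hc p hp])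
  have e3 : ∏ p ∈ A, K3 (kapO (decide (p ∈ A) && τ p) (if p ∈ A then O p else 1)
      (if p ∈ A then u p else 1)) = ∏ p ∈ A, K3 (kapO (τ p) (O p) (u p)) :=
    Finset.prod_congr rfl (fun p hp => by rw [hc p hp])
  simp only [gateSum]
  rw [e0, e1, e2, e3]

theorem norm_gateSumO_le_two_pow (τ : Q → Bool) (O u : Q → Matrix Bool Bool ℂ)
    (hO : ∀ p, Good (O p)) (hu : ∀ p, u p ∈ Matrix.unitaryGroup Bool ℂ) (A : Finset Q) :
    ‖gateSum (fun p => kapO (τ p) (O p) (u p)) A‖ ≤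
      2 ^ ((A.filter fun p => τ p = true).card - 1) := by
  rw [gateSumO_eq_sigExp]
  have hO' : ∀ p, Good (if p ∈ A then O p else 1) := by
    intro p
    split_ifs
    · exact hO p
    · exact good_one
  have hu' : ∀ p, (if p ∈ A then u p else 1) ∈ Matrix.unitaryGroup Bool ℂ := by
    intro p
    split_ifs
    · exact hu p
    · exact one_mem _
  have h := norm_sigExp_le_two_pow (fun p => decide (p ∈ A) && τ p)
    (fun p => if p ∈ A then O p else 1) {A} (fun p => if p ∈ A then u p else 1) hO' hu'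
  have hf : (univ.filter fun p => (decide (p ∈ A) && τ p) = true) =
      A.filter fun p => τ p = true := by
    ext p
    simp
  rw [hf] at h
  exact h

/-- The signed sum of expectations of a product of good matrices after one layer of
multi-controlled `Z` gates with pairwise disjoint supports: at most `12/7` to the power `k`
in modulus, where `k` is the number of flagged qubits. -/
theorem norm_sigExp_le (τ : Q → Bool) (O : Q → Matrix Bool Bool ℂ) (L : Finset (Finset Q))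
    (u : Q → Matrix Bool Bool ℂ) (hL : (L : Set (Finset Q)).PairwiseDisjoint id)
    (hO : ∀ p, Good (O p)) (hu : ∀ p, u p ∈ Matrix.unitaryGroup Bool ℂ) :
    ‖sigExp τ O L u‖ ≤ (12 / 7 : ℝ) ^ (univ.filter fun p => τ p = true).card := by
  rw [sigExp_eq_S4, S4_factor _ L hL, norm_mul, norm_prod, norm_prod]
  have hK : ∏ p ∈ univ \ L.biUnion id, ‖K0 (kapO (τ p) (O p) (u p))‖ ≤ 1 :=
    Finset.prod_le_one (fun p _ => norm_nonneg _)
      (fun p _ => norm_K0_kapO_le (τ p) (O p) (u p) (hO p) (hu p))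
  have hG : ∏ A ∈ L, ‖gateSum (fun p => kapO (τ p) (O p) (u p)) A‖ ≤
      ∏ A ∈ L, (12 / 7 : ℝ) ^ (A.filter fun p => τ p = true).card := by
    refine Finset.prod_le_prod (fun A _ => norm_nonneg _) (fun A _ => ?_)
    exact (le_min (norm_gateSumO_le_nine τ O u hO hu A)
      (norm_gateSumO_le_two_pow τ O u hO hu A)).trans (nine_min_le _)
  have hG0 : 0 ≤ ∏ A ∈ L, ‖gateSum (fun p => kapO (τ p) (O p) (u p)) A‖ :=
    Finset.prod_nonneg fun A _ => norm_nonneg _
  have hsum : ∑ A ∈ L, (A.filter fun p => τ p = true).card ≤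
      (univ.filter fun p => τ p = true).card := by
    rw [← Finset.card_biUnion]
    · apply Finset.card_le_card
      intro p hp
      rw [Finset.mem_biUnion] at hp
      obtain ⟨A, _, hpA⟩ := hp
      rw [Finset.mem_filter] at hpA ⊢
      exact ⟨Finset.mem_univ _, hpA.2⟩
    · intro A hA B hB hAB
      have hd : Disjoint A B := hL hA hB hAB
      exact Finset.disjoint_filter_filter hd
  calc (∏ A ∈ L, ‖gateSum (fun p => kapO (τ p) (O p) (u p)) A‖) *
        ∏ p ∈ univ \ L.biUnion id, ‖K0 (kapO (τ p) (O p) (u p))‖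
      ≤ (∏ A ∈ L, ‖gateSum (fun p => kapO (τ p) (O p) (u p)) A‖) * 1 :=
        mul_le_mul_of_nonneg_left hK hG0
    _ = ∏ A ∈ L, ‖gateSum (fun p => kapO (τ p) (O p) (u p)) A‖ := mul_one _
    _ ≤ ∏ A ∈ L, (12 / 7 : ℝ) ^ (A.filter fun p => τ p = true).card := hG
    _ = (12 / 7 : ℝ) ^ ∑ A ∈ L, (A.filter fun p => τ p = true).card :=
        Finset.prod_pow_eq_pow_sum _ _ _
    _ ≤ (12 / 7 : ℝ) ^ (univ.filter fun p => τ p = true).card :=
        pow_le_pow_right₀ (by norm_num) hsum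

/-- The family of states after the first round satisfies the bound. -/
theorem SB_base (τ : Q → Bool) (L : Finset (Finset Q)) (u : Q → Matrix Bool Bool ℂ)
    (hL : (L : Set (Finset Q)).PairwiseDisjoint id)
    (hu : ∀ p, u p ∈ Matrix.unitaryGroup Bool ℂ) :
    SB τ (fun y => czLayer L (oneQubitLayer u (basisState y)))
      ((12 / 7 : ℝ) ^ (univ.filter fun p => τ p = true).card) := by
  intro O hO
  exact norm_sigExp_le τ O L u hL hO hu

end Vale.Agent.Lib.P368
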