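import Vale.Agent.Lib.P368.Gen.Defs

/-!
# P368, any depth: the signed sum of expectations as a sum over configurations
-/

namespace Vale.Agent.Lib.P368

open Finset

variable {Q : Type} [Fintype Q] [DecidableEq Q]

/-- The amplitude of the basis input `y` at `w` after the layers `u` and `L`. -/
theorem gx_amp (L : Finset (Finset Q)) (u : Q → Matrix Bool Bool ℂ) (y w : Q → Bool) :
    czLayer L (oneQubitLayer u (basisState y)) w =
      (∏ A ∈ L, czSign A w) * ∏ p, u p (w p) (y p) := by
  show (∏ S ∈ L, czSign S w) * oneQubitLayer u (basisState y) w = _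
  rw [oneQubitLayer_basisState]

omit [Fintype Q] [DecidableEq Q] in
/-- The one-qubit weight at a configuration whose dummy bit is `0`. -/
theorem gx_kapO_false (t : Bool) (O u : Matrix Bool Bool ℂ) (y w z : Bool) :
    kapO t O u (y, false, w, z) =
      ((wt t y : ℝ) : ℂ) * ((starRingEnd ℂ) (u z y) * O z w * u w y) := by
  unfold kapO
  rw [if_pos rfl]

omit [Fintype Q] [DecidableEq Q] in
/-- The one-qubit weight vanishes at a configuration whose dummy bit is `1`. -/
theorem gx_kapO_true (t : Bool) (O u : Matrix Bool Bool ℂ) (y w z : Bool) :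
    kapO t O u (y, true, w, z) = 0 := by
  unfold kapO
  rw [if_neg (by simp)]

/-- One term of the three-fold expansion. -/
theorem gx_match (τ : Q → Bool) (O : Q → Matrix Bool Bool ℂ) (L : Finset (Finset Q))
    (u : Q → Matrix Bool Bool ℂ) (y z w : Q → Bool) :
    ((wprod τ y : ℝ) : ℂ) *
      ((starRingEnd ℂ) (czLayer L (oneQubitLayer u (basisState y)) z) *
        ((∏ p, O p (z p) (w p)) * czLayer L (oneQubitLayer u (basisState y)) w)) =
      (∏ p, kapO (τ p) (O p) (u p) (y p, false, w p, z p)) *
        ∏ A ∈ L, (czSign A w * czSign A z) := by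
  rw [gx_amp, gx_amp]
  unfold wprod
  rw [Complex.ofReal_prod]
  simp only [gx_kapO_false, map_mul, map_prod, ex_conj_czSign, Finset.prod_mul_distrib]
  ring

/-- The signed sum of expectations of a product operator is the three-fold expansion, written
as a sum over configurations with a dummy bit. -/
theorem sigExp_eq_S4 (τ : Q → Bool) (O : Q → Matrix Bool Bool ℂ) (L : Finset (Finset Q))
    (u : Q → Matrix Bool Bool ℂ) :
    sigExp τ O L u = S4 (fun p => kapO (τ p) (O p) (u p)) L := by
  have hR : S4 (fun p => kapO (τ p) (O p) (u p)) L =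
      ∑ y : Q → Bool, ∑ d : Q → Bool, ∑ w : Q → Bool, ∑ z : Q → Bool,
        (∏ p, kapO (τ p) (O p) (u p) (y p, d p, w p, z p)) *
          ∏ A ∈ L, (czSign A w * czSign A z) := by
    unfold S4
    rw [← Equiv.sum_comp (ex_equiv Q), Fintype.sum_prod_type]
    refine Fintype.sum_congr _ _ (fun y => ?_)
    rw [Fintype.sum_prod_type]
    refine Fintype.sum_congr _ _ (fun d => ?_)
    rw [Fintype.sum_prod_type]
    rfl
  have hL : sigExp τ O L u =
      ∑ y : Q → Bool, ∑ w : Q → Bool, ∑ z : Q → Bool,
        (∏ p, kapO (τ p) (O p) (u p) (y p, false, w p, z p)) *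
          ∏ A ∈ L, (czSign A w * czSign A z) := by
    unfold sigExp expVal ip
    refine Fintype.sum_congr _ _ (fun y => ?_)
    rw [Finset.mul_sum]
    have e : ∀ z : Q → Bool,
        ((wprod τ y : ℝ) : ℂ) *
          ((starRingEnd ℂ) (czLayer L (oneQubitLayer u (basisState y)) z) *
            oneQubitLayer O (czLayer L (oneQubitLayer u (basisState y))) z) =
        ∑ w : Q → Bool, (∏ p, kapO (τ p) (O p) (u p) (y p, false, w p, z p)) *
          ∏ A ∈ L, (czSign A w * czSign A z) := by
      intro z
      rw [oneQubitLayer_apply, Finset.mul_sum, Finset.mul_sum]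
      refine Fintype.sum_congr _ _ (fun w => ?_)
      exact gx_match τ O L u y z w
    rw [Fintype.sum_congr _ _ e, Finset.sum_comm]
  rw [hL, hR]
  refine Fintype.sum_congr _ _ (fun y => ?_)
  symm
  rw [Finset.sum_eq_single (fun _ : Q => false)]
  · intro d _ hd
    have hp : ∃ p, d p = true := by
      by_contra hcon
      apply hd
      funext p
      by_contra hp'
      apply hcon
      exact ⟨p, by simpa using hp'⟩
    obtain ⟨p, hp⟩ := hp
    refine Finset.sum_eq_zero (fun w _ => Finset.sum_eq_zero (fun z _ => ?_))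
    rw [Finset.prod_eq_zero (Finset.mem_univ p) (by rw [hp]; exact gx_kapO_true _ _ _ _ _ _),
      zero_mul]
  · intro h
    exact absurd (Finset.mem_univ _) h

end Vale.Agent.Lib.P368
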