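import Vale.Agent.Lib.P368.Gen.GProp
import Vale.Agent.Lib.P368.Gen.GGood

/-!
# P368, any depth: the bound on signed sums of expectations through the layers of a circuit
-/

namespace Vale.Agent.Lib.P368

open Finset

variable {Q : Type} [Fintype Q] [DecidableEq Q]

theorem SB_layer (τ : Q → Bool) (Θ : (Q → Bool) → StateVec Q) (K : ℝ)
    (v : Q → Matrix Bool Bool ℂ) (hv : ∀ p, v p ∈ Matrix.unitaryGroup Bool ℂ)
    (h : SB τ Θ K) : SB τ (fun y => oneQubitLayer v (Θ y)) K := by
  intro O hO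
  simp only [expVal_layer]
  exact h _ (fun p => good_conj (O p) (v p) (hO p) (hv p))

/-- Triangle inequality for the combination with coefficients `1`, `-2`, `-2`, `4`. -/
theorem gt_norm_comb (T0 T1 T2 T3 : ℂ) (K : ℝ) (h0 : ‖T0‖ ≤ K) (h1 : ‖T1‖ ≤ K)
    (h2 : ‖T2‖ ≤ K) (h3 : ‖T3‖ ≤ K) : ‖T0 - 2 * T1 - 2 * T2 + 4 * T3‖ ≤ 9 * K := by
  have e1 : ‖(2 : ℂ) * T1‖ = 2 * ‖T1‖ := by
    rw [norm_mul, Complex.norm_ofNat]
  have e2 : ‖(2 : ℂ) * T2‖ = 2 * ‖T2‖ := by
    rw [norm_mul, Complex.norm_ofNat]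
  have e3 : ‖(4 : ℂ) * T3‖ = 4 * ‖T3‖ := by
    rw [norm_mul, Complex.norm_ofNat]
  have a1 := norm_add_le (T0 - 2 * T1 - 2 * T2) (4 * T3)
  have a2 := norm_sub_le (T0 - 2 * T1) (2 * T2)
  have a3 := norm_sub_le T0 (2 * T1)
  linarith

theorem SB_cz_single (τ : Q → Bool) (Θ : (Q → Bool) → StateVec Q) (K : ℝ) (S : Finset Q)
    (h : SB τ Θ K) : SB τ (fun y => czLayer {S} (Θ y)) (9 * K) := by
  intro O hO
  have h0 := h O hO
  have h1 := h (fun p => if p ∈ S then O p * projOne else O p) (fun p => by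
    by_cases hp : p ∈ S
    · simp only [if_pos hp]
      exact good_mul_projOne _ (hO p)
    · simp only [if_neg hp]
      exact hO p)
  have h2 := h (fun p => if p ∈ S then projOne * O p else O p) (fun p => by
    by_cases hp : p ∈ S
    · simp only [if_pos hp]
      exact good_projOne_mul _ (hO p)
    · simp only [if_neg hp]
      exact hO p)
  have h3 := h (fun p => if p ∈ S then projOne * (O p * projOne) else O p) (fun p => by
    by_cases hp : p ∈ S
    · simp only [if_pos hp]
      exact good_projOne_mul _ (good_mul_projOne _ (hO p))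
    · simp only [if_neg hp]
      exact hO p)
  have hsplit : ∑ y : Q → Bool, ((wprod τ y : ℝ) : ℂ) * expVal O (czLayer {S} (Θ y))
      = (∑ y : Q → Bool, ((wprod τ y : ℝ) : ℂ) * expVal O (Θ y))
        - 2 * (∑ y : Q → Bool, ((wprod τ y : ℝ) : ℂ)
            * expVal (fun p => if p ∈ S then O p * projOne else O p) (Θ y))
        - 2 * (∑ y : Q → Bool, ((wprod τ y : ℝ) : ℂ)
            * expVal (fun p => if p ∈ S then projOne * O p else O p) (Θ y))
        + 4 * (∑ y : Q → Bool, ((wprod τ y : ℝ) : ℂ)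
            * expVal (fun p => if p ∈ S then projOne * (O p * projOne) else O p) (Θ y)) := by
    rw [Finset.mul_sum, Finset.mul_sum, Finset.mul_sum, ← Finset.sum_sub_distrib,
      ← Finset.sum_sub_distrib, ← Finset.sum_add_distrib]
    apply Finset.sum_congr rfl
    intro y _
    rw [expVal_cz]
    ring
  show ‖∑ y : Q → Bool, ((wprod τ y : ℝ) : ℂ) * expVal O (czLayer {S} (Θ y))‖ ≤ 9 * K
  rw [hsplit]
  exact gt_norm_comb _ _ _ _ K h0 h1 h2 h3

theorem SB_cz (τ : Q → Bool) (Θ : (Q → Bool) → StateVec Q) (K : ℝ) (L : Finset (Finset Q))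
    (h : SB τ Θ K) : SB τ (fun y => czLayer L (Θ y)) (9 ^ L.card * K) := by
  revert Θ K h
  induction L using Finset.induction_on with
  | empty =>
    intro Θ K h
    simp only [czLayer_empty, Finset.card_empty, pow_zero, one_mul]
    exact h
  | insert S L hS ih =>
    intro Θ K h
    have h1 := ih (fun y => czLayer {S} (Θ y)) (9 * K) (SB_cz_single τ Θ K S h)
    have e : (9 : ℝ) ^ (insert S L).card * K = 9 ^ L.card * (9 * K) := by
      rw [Finset.card_insert_of_notMem hS, pow_succ]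
      ring
    have e2 : (fun y => czLayer (insert S L) (Θ y)) = fun y => czLayer L (czLayer {S} (Θ y)) := by
      funext y
      exact czLayer_insert S L hS (Θ y)
    rw [e, e2]
    exact h1

theorem SB_pre (τ : Q → Bool) (Θ : (Q → Bool) → StateVec Q) (K : ℝ)
    (pre : List ((Q → Matrix Bool Bool ℂ) × Finset (Finset Q)))
    (hpre : ∀ s ∈ pre, ∀ p, s.1 p ∈ Matrix.unitaryGroup Bool ℂ) (h : SB τ Θ K) :
    SB τ (fun y => pre.foldl (fun φ s => czLayer s.2 (oneQubitLayer s.1 φ)) (Θ y))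
      (9 ^ (pre.map fun s => s.2.card).sum * K) := by
  induction pre generalizing Θ K with
  | nil =>
    simp only [List.foldl_nil, List.map_nil, List.sum_nil, pow_zero, one_mul]
    exact h
  | cons s rest ih =>
    have hs : ∀ p, s.1 p ∈ Matrix.unitaryGroup Bool ℂ := hpre s List.mem_cons_self
    have hrest : ∀ s' ∈ rest, ∀ p, s'.1 p ∈ Matrix.unitaryGroup Bool ℂ :=
      fun s' hs' => hpre s' (List.mem_cons_of_mem _ hs')
    have h1 : SB τ (fun y => czLayer s.2 (oneQubitLayer s.1 (Θ y))) (9 ^ s.2.card * K) :=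
      SB_cz τ (fun y => oneQubitLayer s.1 (Θ y)) K s.2 (SB_layer τ Θ K s.1 hs h)
    have h2 := ih (fun y => czLayer s.2 (oneQubitLayer s.1 (Θ y))) (9 ^ s.2.card * K) hrest h1
    have e : (9 : ℝ) ^ ((s :: rest).map fun s => s.2.card).sum * K
        = 9 ^ (rest.map fun s => s.2.card).sum * (9 ^ s.2.card * K) := by
      rw [List.map_cons, List.sum_cons, pow_add]
      ring
    rw [e]
    simp only [List.foldl_cons]
    exact h2

end Vale.Agent.Lib.P368
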