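import Vale.Agent.Lib.P368.Gen.GCore
import Vale.Agent.Lib.P368.Gen.GSB

/-!
# P368, any depth: the signed sum of the outcome probabilities of a circuit, in terms of the
number of gates in its middle entangling layers
-/

namespace Vale.Agent.Lib.P368

open Finset

variable {Q : Type} [Fintype Q] [DecidableEq Q]

/-- The number of generalized Toffoli gates in the entangling layers other than the first and
the last entangling layer. -/
def midGates (Tc : List (List (TGate Q))) : ℕ :=
  (((Tc.filter isEnt).map fun l => (l.filter fun g => g.isRight).length).tail.dropLast).sum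

/-- A real signed sum of squared norms, bounded through the complex bound. -/
theorem abs_signed_normSq_le (τ : Q → Bool) (Θ : (Q → Bool) → StateVec Q) (K : ℝ)
    (h : SB τ Θ K) (m : Q → Matrix Bool Bool ℂ) (hm : ∀ p, IsContr (m p)) :
    |∑ y : Q → Bool, (∏ p, wt (τ p) (y p)) * normSqSum (oneQubitLayer m (Θ y))| ≤ K := by
  have h1 := h (fun p => (m p).conjTranspose * m p) (fun p => good_of_contr (m p) (hm p))
  have e : ((∑ y : Q → Bool, (∏ p, wt (τ p) (y p)) * normSqSum (oneQubitLayer m (Θ y)) : ℝ) : ℂ)
      = ∑ y : Q → Bool, ((wprod τ y : ℝ) : ℂ) *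
          expVal (fun p => (m p).conjTranspose * m p) (Θ y) := by
    rw [Complex.ofReal_sum]
    refine Finset.sum_congr rfl fun y _ => ?_
    rw [← normSqSum_eq_expVal, Complex.ofReal_mul]
    rfl
  rw [← e, Complex.norm_real, Real.norm_eq_abs] at h1
  exact h1

/-- The signed sum over all inputs of the probability of the outcome `b` on qubit `q`: a first
round, any list `mid` of middle rounds, and a last round, each round being a layer of
one-qubit gates followed by a layer of multi-controlled `Z` gates. -/
theorem gen_signed_sum {n : ℕ} (inp : Fin n ↪ Q) (w1 wd last : Q → Matrix Bool Bool ℂ)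
    (L1 Ld : Finset (Finset Q))
    (mid : List ((Q → Matrix Bool Bool ℂ) × Finset (Finset Q)))
    (hw1 : ∀ p, w1 p ∈ Matrix.unitaryGroup Bool ℂ)
    (hwd : ∀ p, wd p ∈ Matrix.unitaryGroup Bool ℂ)
    (hlast : ∀ p, last p ∈ Matrix.unitaryGroup Bool ℂ)
    (hmid : ∀ s ∈ mid, ∀ p, s.1 p ∈ Matrix.unitaryGroup Bool ℂ)
    (hL1 : (L1 : Set (Finset Q)).PairwiseDisjoint id)
    (hLd : (Ld : Set (Finset Q)).PairwiseDisjoint id) (q : Q) (b : Bool) :
    |∑ x : Fin n → Bool, sgn x * measProb (oneQubitLayer last (czLayer Ld (oneQubitLayer wd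
      (mid.foldl (fun φ s => czLayer s.2 (oneQubitLayer s.1 φ))
        (czLayer L1 (oneQubitLayer w1
          (basisState (Function.extend inp x fun _ => false)))))))) q b| ≤
      3 * (9 ^ (mid.map fun s => s.2.card).sum * (12 / 7 : ℝ) ^ n) := by
  obtain ⟨B', r', hr', hmeas⟩ := measProb_depth_two Ld hLd (last q) q b
  have hrow : Complex.normSq (last q b false) + Complex.normSq (last q b true) = 1 :=
    unitary_row _ (hlast q) b
  have hSB : SB (inTau inp) (fun y => oneQubitLayer wd
      (mid.foldl (fun φ s => czLayer s.2 (oneQubitLayer s.1 φ))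
        (czLayer L1 (oneQubitLayer w1 (basisState y)))))
      (9 ^ (mid.map fun s => s.2.card).sum * (12 / 7 : ℝ) ^ n) := by
    have h0 := SB_base (inTau inp) L1 w1 hL1 hw1
    rw [card_inTau] at h0
    have h1 := SB_pre (inTau inp) _ _ mid hmid h0
    exact SB_layer (inTau inp) _ _ wd hwd h1
  have hc0 : ∀ p, IsContr (if p = q then rowMat b (last q b) else 1) := by
    intro p
    split_ifs
    · exact isContr_rowMat b _ (le_of_eq hrow)
    · exact isContr_one
  have hc1 : ∀ p, IsContr (if p = q then rowMat b (last q b) else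
      if p ∈ B' then projOne else 1) := by
    intro p
    split_ifs
    · exact isContr_rowMat b _ (le_of_eq hrow)
    · exact isContr_projOne
    · exact isContr_one
  have hc2 : ∀ p, IsContr (if p = q then rowMat b r' else
      if p ∈ B' then projOne else 1) := by
    intro p
    split_ifs
    · refine isContr_rowMat b _ (le_of_eq ?_)
      rw [hr' false, hr' true]
      exact hrow
    · exact isContr_projOne
    · exact isContr_one
  have b0 := abs_signed_normSq_le (inTau inp) _ _ hSB _ hc0
  have b1 := abs_signed_normSq_le (inTau inp) _ _ hSB _ hc1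
  have b2 := abs_signed_normSq_le (inTau inp) _ _ hSB _ hc2
  have hsum : (∑ x : Fin n → Bool, sgn x * measProb (oneQubitLayer last (czLayer Ld
      (oneQubitLayer wd (mid.foldl (fun φ s => czLayer s.2 (oneQubitLayer s.1 φ))
        (czLayer L1 (oneQubitLayer w1
          (basisState (Function.extend inp x fun _ => false)))))))) q b) =
      (∑ y : Q → Bool, (∏ p, wt (inTau inp p) (y p)) * normSqSum (oneQubitLayer
          (fun p => if p = q then rowMat b (last q b) else 1) (oneQubitLayer wd
            (mid.foldl (fun φ s => czLayer s.2 (oneQubitLayer s.1 φ))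
              (czLayer L1 (oneQubitLayer w1 (basisState y)))))))
        - (∑ y : Q → Bool, (∏ p, wt (inTau inp p) (y p)) * normSqSum (oneQubitLayer
          (fun p => if p = q then rowMat b (last q b) else if p ∈ B' then projOne else 1)
          (oneQubitLayer wd (mid.foldl (fun φ s => czLayer s.2 (oneQubitLayer s.1 φ))
              (czLayer L1 (oneQubitLayer w1 (basisState y)))))))
        + (∑ y : Q → Bool, (∏ p, wt (inTau inp p) (y p)) * normSqSum (oneQubitLayer
          (fun p => if p = q then rowMat b r' else if p ∈ B' then projOne else 1)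
          (oneQubitLayer wd (mid.foldl (fun φ s => czLayer s.2 (oneQubitLayer s.1 φ))
              (czLayer L1 (oneQubitLayer w1 (basisState y))))))) := by
    rw [← sum_sgn_extend inp, ← sum_sgn_extend inp, ← sum_sgn_extend inp,
      ← Finset.sum_sub_distrib, ← Finset.sum_add_distrib]
    refine Finset.sum_congr rfl fun x _ => ?_
    rw [measProb_oneQubitLayer_local last hlast, hmeas]
    ring
  rw [hsum]
  have t1 := abs_add_le
    ((∑ y : Q → Bool, (∏ p, wt (inTau inp p) (y p)) * normSqSum (oneQubitLayer
          (fun p => if p = q then rowMat b (last q b) else 1) (oneQubitLayer wd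
            (mid.foldl (fun φ s => czLayer s.2 (oneQubitLayer s.1 φ))
              (czLayer L1 (oneQubitLayer w1 (basisState y)))))))
        - (∑ y : Q → Bool, (∏ p, wt (inTau inp p) (y p)) * normSqSum (oneQubitLayer
          (fun p => if p = q then rowMat b (last q b) else if p ∈ B' then projOne else 1)
          (oneQubitLayer wd (mid.foldl (fun φ s => czLayer s.2 (oneQubitLayer s.1 φ))
              (czLayer L1 (oneQubitLayer w1 (basisState y))))))))
    (∑ y : Q → Bool, (∏ p, wt (inTau inp p) (y p)) * normSqSum (oneQubitLayer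
          (fun p => if p = q then rowMat b r' else if p ∈ B' then projOne else 1)
          (oneQubitLayer wd (mid.foldl (fun φ s => czLayer s.2 (oneQubitLayer s.1 φ))
              (czLayer L1 (oneQubitLayer w1 (basisState y)))))))
  have t2 := abs_sub
    (∑ y : Q → Bool, (∏ p, wt (inTau inp p) (y p)) * normSqSum (oneQubitLayer
          (fun p => if p = q then rowMat b (last q b) else 1) (oneQubitLayer wd
            (mid.foldl (fun φ s => czLayer s.2 (oneQubitLayer s.1 φ))
              (czLayer L1 (oneQubitLayer w1 (basisState y)))))))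
    (∑ y : Q → Bool, (∏ p, wt (inTau inp p) (y p)) * normSqSum (oneQubitLayer
          (fun p => if p = q then rowMat b (last q b) else if p ∈ B' then projOne else 1)
          (oneQubitLayer wd (mid.foldl (fun φ s => czLayer s.2 (oneQubitLayer s.1 φ))
              (czLayer L1 (oneQubitLayer w1 (basisState y)))))))
  linarith

/-- The signed sum for any number of rounds: the bound only involves the number of gates in the
rounds other than the first and the last. -/
theorem signed_sum_pre {n : ℕ} (inp : Fin n ↪ Q)
    (pre : List ((Q → Matrix Bool Bool ℂ) × Finset (Finset Q)))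
    (last : Q → Matrix Bool Bool ℂ)
    (hpre : ∀ s ∈ pre, (∀ p, s.1 p ∈ Matrix.unitaryGroup Bool ℂ) ∧
      (s.2 : Set (Finset Q)).PairwiseDisjoint id)
    (hlast : ∀ p, last p ∈ Matrix.unitaryGroup Bool ℂ) (q : Q) (b : Bool) :
    |∑ x : Fin n → Bool, sgn x *
        measProb (preRun pre last (basisState (Function.extend inp x fun _ => false))) q b| ≤
      3 * (9 ^ ((pre.map fun s => s.2.card).tail.dropLast).sum * (12 / 7 : ℝ) ^ n) := by
  have hempty : ((∅ : Finset (Finset Q)) : Set (Finset Q)).PairwiseDisjoint id := by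
    simp
  have hone : ∀ p : Q, (1 : Matrix Bool Bool ℂ) ∈ Matrix.unitaryGroup Bool ℂ :=
    fun _ => one_mem _
  match pre, hpre with
  | [], _ =>
    have h := gen_signed_sum inp (fun _ => 1) (fun _ => 1) last ∅ ∅ [] hone hone hlast
      (fun s hs => absurd hs List.not_mem_nil) hempty hempty q b
    simp only [oneQubitLayer_one, czLayer_empty, List.foldl_nil] at h
    exact h
  | [s], hpre =>
    have hs := hpre s List.mem_cons_self
    have h := gen_signed_sum inp (fun _ => 1) s.1 last ∅ s.2 [] hone hs.1 hlast
      (fun s hs => absurd hs List.not_mem_nil) hempty hs.2 q b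
    simp only [oneQubitLayer_one, czLayer_empty, List.foldl_nil] at h
    exact h
  | s1 :: s2 :: rest, hpre =>
    obtain ⟨mid, sd, hmid⟩ : ∃ mid sd, s2 :: rest = mid ++ [sd] :=
      ⟨(s2 :: rest).dropLast, (s2 :: rest).getLast (List.cons_ne_nil _ _),
        (List.dropLast_append_getLast (List.cons_ne_nil _ _)).symm⟩
    rw [hmid] at hpre ⊢
    have hs1 := hpre s1 List.mem_cons_self
    have hsd := hpre sd (List.mem_cons_of_mem _ (List.mem_append_right _ List.mem_cons_self))
    have hmid' : ∀ s ∈ mid, ∀ p, s.1 p ∈ Matrix.unitaryGroup Bool ℂ := fun s hs =>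
      (hpre s (List.mem_cons_of_mem _ (List.mem_append_left _ hs))).1
    have h := gen_signed_sum inp s1.1 sd.1 last s1.2 sd.2 mid hs1.1 hsd.1 hlast hmid' hs1.2
      hsd.2 q b
    have hG : ((List.map (fun s => s.2.card) (s1 :: (mid ++ [sd]))).tail.dropLast).sum =
        (mid.map fun s => s.2.card).sum := by
      simp
    rw [hG]
    have hrun : ∀ ψ : StateVec Q, preRun (s1 :: (mid ++ [sd])) last ψ =
        oneQubitLayer last (czLayer sd.2 (oneQubitLayer sd.1
          (mid.foldl (fun φ s => czLayer s.2 (oneQubitLayer s.1 φ))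
            (czLayer s1.2 (oneQubitLayer s1.1 ψ))))) := by
      intro ψ
      unfold preRun
      rw [List.foldl_cons, List.foldl_append]
      rfl
    simp only [hrun]
    exact h

/-- The signed sum of the output probabilities of a valid circuit of any depth. -/
theorem t_signed_sum_general {n : ℕ} (inp : Fin n ↪ Q) (Tc : List (List (TGate Q)))
    (hv : ∀ l ∈ Tc, LayerValid l) (q : Q) (b : Bool) :
    |∑ x : Fin n → Bool, sgn x * tOutProb Tc inp q x b| ≤
      3 * 9 ^ midGates Tc * (12 / 7 : ℝ) ^ n := by
  obtain ⟨pre, last, _, hcard, hpre, hlast, hrun⟩ := tRun_normal_form Tc hv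
  unfold tOutProb midGates
  simp only [hrun]
  rw [← hcard, mul_assoc]
  exact signed_sum_pre inp pre last hpre hlast q b

/-- From signed sums of outcome probabilities to the parity correlation and the worst-case
advantage, with a general constant. -/
theorem parity_corr_bound_gen {n : ℕ} (K : ℝ) (P : (Fin n → Bool) → Bool → ℝ)
    (hadd : ∀ x, P x true + P x false = 1)
    (hs : ∀ b, |∑ x : Fin n → Bool, sgn x * P x b| ≤ K * (12 / 7 : ℝ) ^ n) :
    |(∑ x : Fin n → Bool, (P x (parity x) - P x (!parity x))) /
        ((2 ^ Fintype.card (Fin n) : ℕ) : ℝ)| ≤ 2 * K * (6 / 7 : ℝ) ^ n ∧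
      ∀ ε : ℝ, (∀ x : Fin n → Bool, 1 / 2 + ε ≤ P x (parity x)) → ε ≤ K * (6 / 7 : ℝ) ^ n := by
  have hcard : Fintype.card (Fin n) = n := Fintype.card_fin n
  have hx : ∀ x : Fin n → Bool,
      P x (parity x) - P x (!parity x) = sgn x * P x false - sgn x * P x true := by
    intro x
    rw [sgn_eq_parity]
    cases h : parity x
    · simp
    · simp
      ring
  have hS : (∑ x : Fin n → Bool, (P x (parity x) - P x (!parity x))) =
      (∑ x : Fin n → Bool, sgn x * P x false) - ∑ x : Fin n → Bool, sgn x * P x true := by
    rw [← Finset.sum_sub_distrib]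
    exact Finset.sum_congr rfl fun x _ => hx x
  have hSabs : |∑ x : Fin n → Bool, (P x (parity x) - P x (!parity x))| ≤
      2 * (K * (12 / 7 : ℝ) ^ n) := by
    rw [hS]
    have h1 := hs false
    have h2 := hs true
    have h3 := abs_sub (∑ x : Fin n → Bool, sgn x * P x false)
      (∑ x : Fin n → Bool, sgn x * P x true)
    linarith
  have hpow : (0 : ℝ) < 2 ^ n := by positivity
  have hratio : (12 / 7 : ℝ) ^ n = (6 / 7 : ℝ) ^ n * 2 ^ n := by
    rw [← mul_pow]
    norm_num
  have hcorr : |(∑ x : Fin n → Bool, (P x (parity x) - P x (!parity x))) /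
        ((2 ^ Fintype.card (Fin n) : ℕ) : ℝ)| ≤ 2 * K * (6 / 7 : ℝ) ^ n := by
    rw [hcard]
    push_cast
    rw [abs_div, abs_of_pos hpow, div_le_iff₀ hpow]
    calc |∑ x : Fin n → Bool, (P x (parity x) - P x (!parity x))|
        ≤ 2 * (K * (12 / 7 : ℝ) ^ n) := hSabs
      _ = 2 * K * (6 / 7 : ℝ) ^ n * 2 ^ n := by rw [hratio]; ring
  refine ⟨hcorr, ?_⟩
  intro ε hε
  have hadd' : ∀ x : Fin n → Bool, P x (parity x) + P x (!parity x) = 1 := by
    intro x
    have h := hadd x
    cases hp : parity x
    · simp only [Bool.not_false]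
      rw [add_comm]
      exact h
    · simp only [Bool.not_true]
      exact h
  have hlow : (2 * ε) * 2 ^ n ≤ ∑ x : Fin n → Bool, (P x (parity x) - P x (!parity x)) := by
    have h1 : ∀ x ∈ (Finset.univ : Finset (Fin n → Bool)),
        2 * ε ≤ P x (parity x) - P x (!parity x) := by
      intro x _
      have h2 := hadd' x
      have h3 := hε x
      linarith
    have h5 := Finset.card_nsmul_le_sum _ _ _ h1
    rw [Finset.card_univ, nsmul_eq_mul] at h5
    have h6 : (Fintype.card (Fin n → Bool) : ℝ) = 2 ^ n := by
      simp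
    rw [h6] at h5
    linarith
  have hcorr2 : 2 * ε ≤ (∑ x : Fin n → Bool, (P x (parity x) - P x (!parity x))) /
        ((2 ^ Fintype.card (Fin n) : ℕ) : ℝ) := by
    rw [hcard]
    push_cast
    rw [le_div_iff₀ hpow]
    exact hlow
  have h7 := le_abs_self ((∑ x : Fin n → Bool, (P x (parity x) - P x (!parity x))) /
        ((2 ^ Fintype.card (Fin n) : ℕ) : ℝ))
  linarith

end Vale.Agent.Lib.P368
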