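import Vale.Agent.Lib.P368.Gen.Defs

/-!
# P368, any depth: expectations through a layer of one-qubit gates and through a
multi-controlled `Z` gate
-/

namespace Vale.Agent.Lib.P368

open Finset

variable {Q : Type} [Fintype Q] [DecidableEq Q]

theorem ip_adj (u : Q → Matrix Bool Bool ℂ) (φ ψ : StateVec Q) :
    ip φ (oneQubitLayer u ψ) = ip (oneQubitLayer (fun p => (u p).conjTranspose) φ) ψ := by
  unfold ip
  exact inner_oneQubitLayer u φ ψ

theorem expVal_eq_ip (A B : Q → Matrix Bool Bool ℂ) (ψ : StateVec Q) :
    expVal (fun p => (A p).conjTranspose * B p) ψ =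
      ip (oneQubitLayer A ψ) (oneQubitLayer B ψ) := by
  unfold expVal
  rw [← oneQubitLayer_comp (fun p => (A p).conjTranspose) B ψ, ip_adj]
  simp only [Matrix.conjTranspose_conjTranspose]

theorem normSqSum_eq_expVal (m : Q → Matrix Bool Bool ℂ) (ψ : StateVec Q) :
    ((normSqSum (oneQubitLayer m ψ) : ℝ) : ℂ) =
      expVal (fun p => (m p).conjTranspose * m p) ψ := by
  rw [normSqSum_cast, expVal_eq_ip]
  rfl

theorem expVal_layer (O v : Q → Matrix Bool Bool ℂ) (ψ : StateVec Q) :
    expVal O (oneQubitLayer v ψ) = expVal (fun p => (v p).conjTranspose * O p * v p) ψ := by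
  unfold expVal
  have h := ip_adj (fun p => (v p).conjTranspose) ψ (oneQubitLayer O (oneQubitLayer v ψ))
  simp only [Matrix.conjTranspose_conjTranspose] at h
  rw [← h, oneQubitLayer_comp, oneQubitLayer_comp]

/-- The layer of projectors onto `1` on the qubits of `S` (identity elsewhere). -/
noncomputable def gp_P (S : Finset Q) : Q → Matrix Bool Bool ℂ :=
  fun p => if p ∈ S then projOne else 1

theorem gp_projOne_conjTranspose : (projOne : Matrix Bool Bool ℂ).conjTranspose = projOne := by
  ext i j
  cases i <;> cases j <;> simp [projOne, Matrix.conjTranspose_apply]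

omit [Fintype Q] in
theorem gp_P_conjTranspose (S : Finset Q) (p : Q) : (gp_P S p).conjTranspose = gp_P S p := by
  unfold gp_P
  split_ifs
  · exact gp_projOne_conjTranspose
  · exact Matrix.conjTranspose_one

omit [Fintype Q] in
theorem gp_P_entry (S : Finset Q) (p : Q) (a b : Bool) :
    gp_P S p a b = if a = b ∧ (p ∈ S → a = true) then 1 else 0 := by
  unfold gp_P
  by_cases hp : p ∈ S
  · cases a <;> cases b <;> simp [hp, projOne]
  · cases a <;> cases b <;> simp [hp]

/-- The layer of projectors is diagonal: it keeps the amplitudes of the basis states with all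
qubits of `S` equal to `1` and kills the others. -/
theorem gp_P_apply (S : Finset Q) (ψ : StateVec Q) (z : Q → Bool) :
    oneQubitLayer (gp_P S) ψ z = if ∀ p ∈ S, z p = true then ψ z else 0 := by
  rw [oneQubitLayer_apply]
  have hdiag : ∀ w : Q → Bool, (∏ p, gp_P S p (z p) (w p)) =
      if w = z then (if ∀ p ∈ S, z p = true then 1 else 0) else 0 := by
    intro w
    simp only [gp_P_entry]
    rw [Finset.prod_ite_zero]
    by_cases hwz : w = z
    · subst hwz
      simp
    · have hno : ¬ ∀ p ∈ (univ : Finset Q), w p = z p := by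
        intro h
        exact hwz (funext fun p => h p (mem_univ p))
      have hno' : ¬ ∀ p ∈ (univ : Finset Q), z p = w p ∧ (p ∈ S → z p = true) := by
        intro h
        exact hno fun p hp => ((h p hp).1).symm
      rw [if_neg hno', if_neg hwz]
  simp only [hdiag]
  rw [Finset.sum_eq_single z]
  · rw [if_pos rfl]
    split_ifs <;> simp
  · intro w _ hw
    rw [if_neg hw, zero_mul]
  · intro h
    exact absurd (mem_univ z) h

/-- The multi-controlled `Z` gate is the identity minus twice the layer of projectors. -/
theorem gp_cz_eq (S : Finset Q) (ψ : StateVec Q) :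
    czLayer {S} ψ = fun z => ψ z - 2 * oneQubitLayer (gp_P S) ψ z := by
  funext z
  unfold czLayer
  rw [Finset.prod_singleton, gp_P_apply]
  unfold czSign
  split_ifs <;> ring

theorem gp_layer_sub (O : Q → Matrix Bool Bool ℂ) (f g : StateVec Q) :
    oneQubitLayer O (fun z => f z - 2 * g z) =
      fun z => oneQubitLayer O f z - 2 * oneQubitLayer O g z := by
  funext z
  simp only [oneQubitLayer_apply]
  rw [Finset.mul_sum, ← Finset.sum_sub_distrib]
  refine Finset.sum_congr rfl fun w _ => ?_
  ring

theorem gp_ip_sub_left (f g h : StateVec Q) :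
    ip (fun z => f z - 2 * g z) h = ip f h - 2 * ip g h := by
  unfold ip
  rw [Finset.mul_sum, ← Finset.sum_sub_distrib]
  refine Finset.sum_congr rfl fun z _ => ?_
  simp only [map_sub, map_mul, map_ofNat]
  ring

theorem gp_ip_sub_right (h f g : StateVec Q) :
    ip h (fun z => f z - 2 * g z) = ip h f - 2 * ip h g := by
  unfold ip
  rw [Finset.mul_sum, ← Finset.sum_sub_distrib]
  refine Finset.sum_congr rfl fun z _ => ?_
  ring

theorem gp_ip_P (S : Finset Q) (ψ X : StateVec Q) :
    ip (oneQubitLayer (gp_P S) ψ) X = ip ψ (oneQubitLayer (gp_P S) X) := by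
  rw [ip_adj (gp_P S) ψ X]
  have hfun : (fun p => (gp_P S p).conjTranspose) = gp_P S :=
    funext fun p => gp_P_conjTranspose S p
  rw [hfun]

/-- A multi-controlled `Z` gate on `S`: the expectation of `O` after the gate is a combination
of four expectations before the gate. -/
theorem expVal_cz (O : Q → Matrix Bool Bool ℂ) (S : Finset Q) (ψ : StateVec Q) :
    expVal O (czLayer {S} ψ) =
      expVal O ψ
        - 2 * expVal (fun p => if p ∈ S then O p * projOne else O p) ψ
        - 2 * expVal (fun p => if p ∈ S then projOne * O p else O p) ψ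
        + 4 * expVal (fun p => if p ∈ S then projOne * (O p * projOne) else O p) ψ := by
  have hO1 : oneQubitLayer O (oneQubitLayer (gp_P S) ψ) =
      oneQubitLayer (fun p => if p ∈ S then O p * projOne else O p) ψ := by
    rw [oneQubitLayer_comp]
    congr 1
    funext p
    unfold gp_P
    split_ifs
    · rfl
    · rw [mul_one]
  have hO2 : oneQubitLayer (gp_P S) (oneQubitLayer O ψ) =
      oneQubitLayer (fun p => if p ∈ S then projOne * O p else O p) ψ := by
    rw [oneQubitLayer_comp]
    congr 1
    funext p
    unfold gp_P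
    split_ifs
    · rfl
    · rw [one_mul]
  have hO3 : oneQubitLayer (gp_P S)
      (oneQubitLayer (fun p => if p ∈ S then O p * projOne else O p) ψ) =
      oneQubitLayer (fun p => if p ∈ S then projOne * (O p * projOne) else O p) ψ := by
    rw [oneQubitLayer_comp]
    congr 1
    funext p
    unfold gp_P
    split_ifs
    · rfl
    · rw [one_mul]
  unfold expVal
  rw [gp_cz_eq, gp_layer_sub, gp_ip_sub_left, gp_ip_sub_right, gp_ip_sub_right, gp_ip_P,
    gp_ip_P, hO1, hO2, hO3]
  ring

end Vale.Agent.Lib.P368
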